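import Vale.Agent.P123.Sturm

namespace Vale.Agent.P123

open Complex in
/-- Polar form of `c` at the angle `ψ`. -/
lemma polar_c (c : ℂ) (ψ : ℝ) :
    c = exp ((ψ : ℂ) * I) * (((c.re * Real.cos ψ + c.im * Real.sin ψ : ℝ) : ℂ)
      + ((c.im * Real.cos ψ - c.re * Real.sin ψ : ℝ) : ℂ) * I) := by
  have h := Real.sin_sq_add_cos_sq ψ
  apply Complex.ext
  · simp only [mul_re, mul_im, add_re, add_im, ofReal_re, ofReal_im, I_re, I_im,
      exp_ofReal_mul_I_re, exp_ofReal_mul_I_im]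
    linear_combination (-c.re) * h
  · simp only [mul_re, mul_im, add_re, add_im, ofReal_re, ofReal_im, I_re, I_im,
      exp_ofReal_mul_I_re, exp_ofReal_mul_I_im]
    linear_combination (-c.im) * h

open Complex in
/-- Norm in polar form. -/
lemma polar_norm (c : ℂ) (ψ r : ℝ) :
    ‖(r : ℂ) * exp ((ψ : ℂ) * I) - c‖ ^ 2
      = (r - (c.re * Real.cos ψ + c.im * Real.sin ψ)) ^ 2
        + (c.im * Real.cos ψ - c.re * Real.sin ψ) ^ 2 := by
  have h := Real.sin_sq_add_cos_sq ψ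
  rw [Complex.sq_norm, normSq_apply]
  simp only [sub_re, sub_im, mul_re, mul_im, ofReal_re, ofReal_im, exp_ofReal_mul_I_re,
    exp_ofReal_mul_I_im]
  ring_nf
  have e : r ^ 2 * Real.cos ψ ^ 2 + r ^ 2 * Real.sin ψ ^ 2 = r ^ 2 := by
    rw [← mul_add, add_comm (Real.cos ψ ^ 2), h, mul_one]
  nlinarith

open Complex in
/-- The tangency inequality for `z^n - c` at levels `M ≥ n |c|`. -/
theorem tangency_monic (m : ℕ) (hm : 1 ≤ m) (c : ℂ) (M : ℝ) (hM : 0 < M)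
    (hc : ((m + 1 : ℕ) : ℝ) * ‖c‖ ≤ M) (x b : ℂ) (hx : ‖x ^ (m + 1) - c‖ = M)
    (hb : ‖b ^ (m + 1) - c‖ ≤ M) :
    0 ≤ (((m + 1 : ℕ) : ℂ) * x ^ m * (x - b) / (x ^ (m + 1) - c)).re := by
  set n : ℕ := m + 1 with hn
  have hn2 : (2 : ℝ) ≤ (n : ℝ) := by
    have : 2 ≤ n := by omega
    exact_mod_cast this
  set p : ℝ := c.re with hp
  set q : ℝ := c.im with hq
  have hnorm : p ^ 2 + q ^ 2 = ‖c‖ ^ 2 := by
    rw [Complex.sq_norm, normSq_apply]
    ring
  have hc0 : 0 ≤ ‖c‖ := norm_nonneg c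
  have hcM : ‖c‖ < M := by
    by_contra h
    push Not at h
    have h1 : 2 * ‖c‖ ≤ M := by nlinarith
    linarith
  have hnM : (n : ℝ) ^ 2 * (p ^ 2 + q ^ 2) ≤ M ^ 2 := by
    rw [hnorm, ← mul_pow]
    gcongr
  have hlt : p ^ 2 + q ^ 2 < M ^ 2 := by
    rw [hnorm]
    gcongr
  obtain ⟨G, D, -, hst, hGeq, hDeq⟩ := radial_core n (by omega) p q M hM hnM hlt
  -- the functions
  set Cf : ℝ → ℝ := fun ψ => p * Real.cos ψ + q * Real.sin ψ with hCf
  set Sf : ℝ → ℝ := fun ψ => q * Real.cos ψ - p * Real.sin ψ with hSf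
  set Q : ℝ → ℝ := fun ψ => Real.sqrt (M ^ 2 - Sf ψ ^ 2) with hQ
  have hCS : ∀ ψ, Cf ψ ^ 2 + Sf ψ ^ 2 = p ^ 2 + q ^ 2 := by
    intro ψ
    simp only [hCf, hSf]
    have := Real.sin_sq_add_cos_sq ψ
    linear_combination (p ^ 2 + q ^ 2) * this
  have hQ2pos : ∀ ψ, 0 < M ^ 2 - Sf ψ ^ 2 := by
    intro ψ
    have := hCS ψ
    nlinarith [sq_nonneg (Cf ψ)]
  have hQpos : ∀ ψ, 0 < Q ψ := fun ψ => Real.sqrt_pos.2 (hQ2pos ψ)
  have hQsq : ∀ ψ, Q ψ ^ 2 = M ^ 2 - Sf ψ ^ 2 := fun ψ => Real.sq_sqrt (hQ2pos ψ).le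
  have hCQ : ∀ ψ, |Cf ψ| < Q ψ := by
    intro ψ
    have h2 := hQsq ψ
    have h3 := hCS ψ
    have h4 : Cf ψ ^ 2 < Q ψ ^ 2 := by nlinarith
    exact abs_lt_of_sq_lt_sq h4 (hQpos ψ).le
  -- x is nonzero
  have hx0 : x ≠ 0 := by
    rintro rfl
    rw [zero_pow (by omega), zero_sub, norm_neg] at hx
    linarith
  set R : ℝ := ‖x‖ with hR
  have hRpos : 0 < R := norm_pos_iff.2 hx0
  set φ0 : ℝ := arg x with hφ0
  set E : ℂ := exp ((φ0 : ℂ) * I) with hE
  have hE0 : E ≠ 0 := exp_ne_zero _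
  have hxE : x = (R : ℂ) * E := (norm_mul_exp_arg_mul_I x).symm
  have hEn : E ^ n = exp (((n * φ0 : ℝ) : ℂ) * I) := by
    rw [hE, ← exp_nat_mul]
    congr 1
    push_cast
    ring
  have hxn : x ^ n = ((R ^ n : ℝ) : ℂ) * exp (((n * φ0 : ℝ) : ℂ) * I) := by
    rw [hxE, mul_pow, hEn]
    push_cast
    ring
  set ψ0 : ℝ := n * φ0 with hψ0
  -- the radial equation at x
  have hRn : R ^ n = Cf ψ0 + Q ψ0 := by
    have h1 := polar_norm c ψ0 (R ^ n)
    rw [← hxn, hx] at h1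
    have h2 : (R ^ n - Cf ψ0) ^ 2 = Q ψ0 ^ 2 := by
      rw [hQsq]
      simp only [hCf, hSf]
      linarith
    have hRnpos : 0 < R ^ n := by positivity
    rcases sq_eq_sq_iff_eq_or_eq_neg.1 h2 with h3 | h3
    · linarith
    · have := abs_lt.1 (hCQ ψ0)
      linarith [this.2]
  -- x^n - c in polar form
  have hτ : x ^ n - c = E ^ n * (((Q ψ0 : ℝ) : ℂ) - ((Sf ψ0 : ℝ) : ℂ) * I) := by
    have h1 := polar_c c ψ0
    rw [hEn, hxn]
    conv_lhs => rw [h1]
    rw [hRn]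
    simp only [hCf, hSf]
    push_cast
    ring
  have hprod : (((Q ψ0 : ℝ) : ℂ) - ((Sf ψ0 : ℝ) : ℂ) * I) * (((Q ψ0 : ℝ) : ℂ) + ((Sf ψ0 : ℝ) : ℂ) * I)
      = ((M ^ 2 : ℝ) : ℂ) := by
    have h2 : M ^ 2 = Q ψ0 ^ 2 + Sf ψ0 ^ 2 := by linarith [hQsq ψ0]
    rw [h2]
    push_cast
    ring_nf
    rw [I_sq]
    ring
  have hMC : ((M ^ 2 : ℝ) : ℂ) ≠ 0 := by
    have : M ^ 2 ≠ 0 := by positivity
    exact_mod_cast this
  have hne : ((Q ψ0 : ℝ) : ℂ) - ((Sf ψ0 : ℝ) : ℂ) * I ≠ 0 := by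
    intro h
    rw [h, zero_mul] at hprod
    exact hMC hprod.symm
  -- polar data of b and the key real inequality
  obtain ⟨r, δ, hr0, hbE, hkey⟩ : ∃ r δ : ℝ, 0 ≤ r ∧ b = (r : ℂ) * E * exp ((δ : ℂ) * I) ∧
      r * (Q ψ0 * Real.cos δ - Sf ψ0 * Real.sin δ) ≤ R * Q ψ0 := by
    by_cases hb0 : b = 0
    · refine ⟨0, 0, le_rfl, by simp [hb0], ?_⟩
      have := hQpos ψ0
      simp only [zero_mul]
      positivity
    · set r : ℝ := ‖b‖ with hr
      have hrpos : 0 < r := norm_pos_iff.2 hb0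
      set δ : ℝ := arg (b / x) with hδ
      have hδ1 : -Real.pi < δ := neg_pi_lt_arg _
      have hδ2 : δ ≤ Real.pi := arg_le_pi _
      have hbx : b / x = ((r / R : ℝ) : ℂ) * exp ((δ : ℂ) * I) := by
        have := (norm_mul_exp_arg_mul_I (b / x)).symm
        rw [norm_div] at this
        exact this
      have hbE : b = (r : ℂ) * E * exp ((δ : ℂ) * I) := by
        have hRC : (R : ℂ) ≠ 0 := by exact_mod_cast hRpos.ne'
        have h1 : b = (b / x) * x := by field_simp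
        rw [h1, hbx]
        conv_lhs => rw [hxE]
        push_cast
        field_simp
      refine ⟨r, δ, hrpos.le, hbE, ?_⟩
      set φ : ℝ := φ0 + δ with hφ
      have hEexp : E * exp ((δ : ℂ) * I) = exp ((φ : ℂ) * I) := by
        rw [hE, ← exp_add]
        congr 1
        simp only [hφ]
        push_cast
        ring
      have hbn : b ^ n = ((r ^ n : ℝ) : ℂ) * exp (((n * φ : ℝ) : ℂ) * I) := by
        rw [hbE, mul_assoc, hEexp, mul_pow, ← exp_nat_mul]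
        push_cast
        congr 2
        ring
      set ψ : ℝ := n * φ with hψ
      have h1 := polar_norm c ψ (r ^ n)
      rw [← hbn] at h1
      have h2 : (r ^ n - Cf ψ) ^ 2 ≤ Q ψ ^ 2 := by
        rw [hQsq]
        have h3 : ‖b ^ n - c‖ ^ 2 ≤ M ^ 2 := by gcongr
        simp only [hCf, hSf]
        linarith
      have h3 : r ^ n ≤ Cf ψ + Q ψ := by
        have := abs_le_of_sq_le_sq' h2 (hQpos ψ).le
        linarith [this.2]
      have hρpos : 0 < Cf ψ + Q ψ := by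
        have := abs_lt.1 (hCQ ψ)
        linarith [this.1]
      have hnR : (0 : ℝ) < n := by linarith
      have hG1 : G φ ≤ 1 / r := by
        rw [hGeq φ]
        have h4 : (n : ℝ) * Real.log r ≤ Real.log (Cf ψ + Q ψ) := by
          rw [← Real.log_pow]
          exact Real.log_le_log (by positivity) h3
        have h5 : -Real.log (Cf ψ + Q ψ) / n ≤ -Real.log r := by
          rw [div_le_iff₀ hnR]
          nlinarith
        calc _ ≤ Real.exp (-Real.log r) := Real.exp_le_exp.2 h5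
          _ = 1 / r := by rw [Real.exp_neg, Real.exp_log hrpos, one_div]
      have hG0 : G φ0 = 1 / R := by
        rw [hGeq φ0]
        have h4 : p * Real.cos (n * φ0) + q * Real.sin (n * φ0)
            + Real.sqrt (M ^ 2 - (q * Real.cos (n * φ0) - p * Real.sin (n * φ0)) ^ 2) = R ^ n := by
          rw [hRn]
        rw [h4, Real.log_pow]
        have hnne : (n : ℝ) ≠ 0 := hnR.ne'
        have h5 : -((n : ℝ) * Real.log R) / n = -Real.log R := by field_simp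
        rw [h5, Real.exp_neg, Real.exp_log hRpos, one_div]
      have hD0 : D φ0 = -(Sf ψ0 / Q ψ0) * (1 / R) := by
        rw [hDeq φ0, hG0]
      have hs := hst φ0 δ hδ1.le hδ2
      rw [hG0, hD0] at hs
      have h6 : 1 / R * Real.cos δ + -(Sf ψ0 / Q ψ0) * (1 / R) * Real.sin δ ≤ 1 / r :=
        hs.trans hG1
      have hQp := hQpos ψ0
      have h7 : (Q ψ0 * Real.cos δ - Sf ψ0 * Real.sin δ) / (R * Q ψ0) ≤ 1 / r := by
        calc _ = 1 / R * Real.cos δ + -(Sf ψ0 / Q ψ0) * (1 / R) * Real.sin δ := by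
              field_simp
              ring
          _ ≤ _ := h6
      rw [div_le_div_iff₀ (by positivity) hrpos] at h7
      linarith
  -- the final formula
  have hform : ((n : ℂ) * x ^ m * (x - b) / (x ^ n - c))
      = (((n : ℝ) * R ^ m / M ^ 2 : ℝ) : ℂ) *
        (((R : ℂ) - (r : ℂ) * exp ((δ : ℂ) * I)) * (((Q ψ0 : ℝ) : ℂ) + ((Sf ψ0 : ℝ) : ℂ) * I)) := by
    rw [hτ, hbE]
    conv_lhs => rw [hxE]
    have hM2 : ((M : ℂ)) ^ 2 = ((M ^ 2 : ℝ) : ℂ) := by push_cast; ring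
    have hEp : E ^ n = E ^ m * E := pow_succ E m
    rw [hEp, mul_pow]
    have hE2 : E ^ m ≠ 0 := pow_ne_zero _ hE0
    push_cast
    have hMne : (M : ℂ) ≠ 0 := by exact_mod_cast hM.ne'
    rw [div_eq_iff (mul_ne_zero (mul_ne_zero hE2 hE0) hne)]
    have hprod' := hprod
    push_cast at hprod'
    field_simp
    linear_combination (-(n : ℂ)) * (R : ℂ) ^ m * ((R : ℂ) - (r : ℂ) * exp ((δ : ℂ) * I)) * hprod'
  rw [hform, re_ofReal_mul]
  refine mul_nonneg (by positivity) ?_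
  have hre : (((R : ℂ) - (r : ℂ) * exp ((δ : ℂ) * I)) * (((Q ψ0 : ℝ) : ℂ) + ((Sf ψ0 : ℝ) : ℂ) * I)).re
      = R * Q ψ0 - r * (Q ψ0 * Real.cos δ - Sf ψ0 * Real.sin δ) := by
    simp only [mul_re, mul_im, add_re, add_im, sub_re, sub_im, ofReal_re, ofReal_im, I_re, I_im,
      exp_ofReal_mul_I_re, exp_ofReal_mul_I_im]
    ring
  rw [hre]
  linarith

open Polynomial in
/-- The tangency inequality for `a (z - e)^n + d` at levels `M ≥ n |d|`. -/
theorem tangency_binomial (n : ℕ) (hn : 0 < n) (a e d : ℂ) (ha : a ≠ 0) (M : ℝ) (hM : 0 < M)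
    (hd : (n : ℝ) * ‖d‖ ≤ M) (ξ w : ℂ)
    (hξ : ‖(C a * (X - C e) ^ n + C d : ℂ[X]).eval ξ‖ = M)
    (hw : ‖(C a * (X - C e) ^ n + C d : ℂ[X]).eval w‖ ≤ M) :
    0 ≤ ((C a * (X - C e) ^ n + C d : ℂ[X]).derivative.eval ξ * (ξ - w) /
      (C a * (X - C e) ^ n + C d : ℂ[X]).eval ξ).re := by
  have hder : (C a * (X - C e) ^ n + C d : ℂ[X]).derivative.eval ξ
      = a * ((n : ℂ) * (ξ - e) ^ (n - 1)) := by
    simp [derivative_mul, derivative_pow]
  have hev : ∀ z : ℂ, (C a * (X - C e) ^ n + C d : ℂ[X]).eval z = a * (z - e) ^ n + d := by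
    intro z
    simp
  rw [hder]
  rw [hev] at hξ hw ⊢
  have hτ0 : a * (ξ - e) ^ n + d ≠ 0 := by
    intro h
    rw [h, norm_zero] at hξ
    exact hM.ne hξ
  rcases Nat.lt_or_ge n 2 with h1 | h2
  · -- the linear case
    have hn1 : n = 1 := by omega
    subst hn1
    simp only [pow_one, Nat.cast_one, one_mul, Nat.sub_self, pow_zero, mul_one] at hξ hw hτ0 ⊢
    set τ := a * (ξ - e) + d with hτ
    set τ' := a * (w - e) + d with hτ'
    have e1 : a * (ξ - w) / τ = 1 - τ' / τ := by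
      have : a * (ξ - w) = τ - τ' := by rw [hτ, hτ']; ring
      rw [this]
      field_simp
    rw [e1, Complex.sub_re, Complex.one_re]
    have h3 : ‖τ' / τ‖ ≤ 1 := by
      rw [norm_div, hξ, div_le_one hM]
      exact hw
    have h4 := Complex.re_le_norm (τ' / τ)
    linarith
  · obtain ⟨m, rfl⟩ : ∃ m, n = m + 1 := ⟨n - 1, by omega⟩
    have hm : 1 ≤ m := by omega
    have hna : 0 < ‖a‖ := norm_pos_iff.2 ha
    set c : ℂ := -d / a with hc
    have hdc : d = -(a * c) := by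
      rw [hc]
      field_simp
    have hfac : ∀ z : ℂ, a * z ^ (m + 1) + d = a * (z ^ (m + 1) - c) := by
      intro z
      rw [hdc]
      ring
    have hM' : 0 < M / ‖a‖ := div_pos hM hna
    have hcn : ((m + 1 : ℕ) : ℝ) * ‖c‖ ≤ M / ‖a‖ := by
      rw [le_div_iff₀ hna]
      have : ‖d‖ = ‖a‖ * ‖c‖ := by
        rw [hdc, norm_neg, norm_mul]
      rw [this] at hd
      linarith
    have hx : ‖(ξ - e) ^ (m + 1) - c‖ = M / ‖a‖ := by
      rw [hfac, norm_mul] at hξ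
      rw [eq_div_iff hna.ne']
      linarith
    have hb : ‖(w - e) ^ (m + 1) - c‖ ≤ M / ‖a‖ := by
      rw [hfac, norm_mul] at hw
      rw [le_div_iff₀ hna]
      linarith
    have hmain := tangency_monic m hm c (M / ‖a‖) hM' hcn (ξ - e) (w - e) hx hb
    have hne : (ξ - e) ^ (m + 1) - c ≠ 0 := by
      intro h
      apply hτ0
      rw [hfac, h, mul_zero]
    have e1 : a * (((m + 1 : ℕ) : ℂ) * (ξ - e) ^ (m + 1 - 1)) * (ξ - w) / (a * (ξ - e) ^ (m + 1) + d)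
        = ((m + 1 : ℕ) : ℂ) * (ξ - e) ^ m * (ξ - e - (w - e)) / ((ξ - e) ^ (m + 1) - c) := by
      rw [hfac, Nat.add_sub_cancel]
      have : ξ - e - (w - e) = ξ - w := by ring
      rw [this]
      field_simp
    rw [e1]
    exact hmain

end Vale.Agent.P123
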