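import Vale.Agent.P123.Polygon

open Polynomial

namespace Vale.Agent.P123

variable {H : Type*} [NormedAddCommGroup H] [InnerProductSpace ℂ H]

/-- Numerical radius bound implies norm bound with the factor two. -/
theorem norm_le_two_mul (T : H →L[ℂ] H) (M : ℝ) (hM : 0 ≤ M)
    (hT : ∀ y : H, ‖inner ℂ y (T y)‖ ≤ M * ‖y‖ ^ 2) : ‖T‖ ≤ 2 * M := by
  have hT' : ∀ y : H, ‖(inner ℂ (T y) y : ℂ)‖ ≤ M * ‖y‖ ^ 2 := by
    intro y
    rw [norm_inner_symm]
    exact hT y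
  have key : ∀ x y : H, ‖(inner ℂ (T x) y : ℂ)‖ ≤ M * (‖x‖ ^ 2 + ‖y‖ ^ 2) := by
    intro x y
    have h := inner_map_polarization' (T : H →ₗ[ℂ] H) x y
    simp only [ContinuousLinearMap.coe_coe] at h
    rw [h, norm_div]
    have h4 : ‖(4 : ℂ)‖ = 4 := by simp
    rw [h4, div_le_iff₀ (by norm_num)]
    have hI : ‖y‖ = ‖Complex.I • y‖ := by simp [norm_smul]
    have p1 := parallelogram_law_with_norm ℂ x y
    have p2 := parallelogram_law_with_norm ℂ x (Complex.I • y)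
    rw [← hI] at p2
    have e1 := hT' (x + y)
    have e2 := hT' (x - y)
    have e3 := hT' (x + Complex.I • y)
    have e4 := hT' (x - Complex.I • y)
    have hn : ∀ a b c d : ℂ, ‖a - b - Complex.I * c + Complex.I * d‖ ≤ ‖a‖ + ‖b‖ + ‖c‖ + ‖d‖ := by
      intro a b c d
      calc _ ≤ ‖a - b - Complex.I * c‖ + ‖Complex.I * d‖ := norm_add_le _ _
        _ ≤ ‖a - b‖ + ‖Complex.I * c‖ + ‖Complex.I * d‖ := by
            gcongr
            exact norm_sub_le _ _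
        _ ≤ ‖a‖ + ‖b‖ + ‖Complex.I * c‖ + ‖Complex.I * d‖ := by
            gcongr
            exact norm_sub_le _ _
        _ = _ := by simp
    calc _ ≤ ‖(inner ℂ (T (x + y)) (x + y) : ℂ)‖ + ‖(inner ℂ (T (x - y)) (x - y) : ℂ)‖
            + ‖(inner ℂ (T (x + Complex.I • y)) (x + Complex.I • y) : ℂ)‖
            + ‖(inner ℂ (T (x - Complex.I • y)) (x - Complex.I • y) : ℂ)‖ := hn _ _ _ _
      _ ≤ M * ‖x + y‖ ^ 2 + M * ‖x - y‖ ^ 2 + M * ‖x + Complex.I • y‖ ^ 2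
            + M * ‖x - Complex.I • y‖ ^ 2 := by gcongr
      _ = M * (‖x‖ ^ 2 + ‖y‖ ^ 2) * 4 := by
          have : ‖x + y‖ ^ 2 + ‖x - y‖ ^ 2 = 2 * (‖x‖ ^ 2 + ‖y‖ ^ 2) := by
            nlinarith [p1]
          have h' : ‖x + Complex.I • y‖ ^ 2 + ‖x - Complex.I • y‖ ^ 2
              = 2 * (‖x‖ ^ 2 + ‖y‖ ^ 2) := by
            nlinarith [p2]
          linear_combination M * this + M * h'
  refine ContinuousLinearMap.opNorm_le_bound _ (by positivity) ?_
  intro x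
  by_cases hx : T x = 0
  · rw [hx, norm_zero]
    positivity
  by_cases hx0 : x = 0
  · simp [hx0]
  have hTx : 0 < ‖T x‖ := norm_pos_iff.2 hx
  have hxn : 0 < ‖x‖ := norm_pos_iff.2 hx0
  set y : H := ((‖x‖ / ‖T x‖ : ℝ) : ℂ) • T x with hy
  have hyn : ‖y‖ = ‖x‖ := by
    rw [hy, norm_smul, Complex.norm_real, Real.norm_eq_abs, abs_of_pos (by positivity)]
    field_simp
  have h1 := key x y
  have h2 : (inner ℂ (T x) y : ℂ) = ((‖x‖ * ‖T x‖ : ℝ) : ℂ) := by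
    rw [hy, inner_smul_right, inner_self_eq_norm_sq_to_K]
    simp only [Complex.coe_algebraMap]
    push_cast
    have : ((‖T x‖ : ℝ) : ℂ) ≠ 0 := by exact_mod_cast hTx.ne'
    field_simp
  rw [h2, hyn, Complex.norm_real, Real.norm_eq_abs, abs_of_pos (by positivity)] at h1
  have h3 : ‖x‖ * ‖T x‖ ≤ ‖x‖ * (2 * M * ‖x‖) := by nlinarith
  exact le_of_mul_le_mul_left h3 hxn

/-- The bound from tangents of the lemniscate. -/
theorem tangent_bound (A : H →L[ℂ] H) (P : ℂ[X]) (hP : 0 < P.natDegree) (M : ℝ) (hM : 0 < M)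
    (htan : ∀ ξ : ℂ, ‖P.eval ξ‖ = M → ∀ x : H, ‖x‖ = 1 →
       0 ≤ (P.derivative.eval ξ * (ξ - inner ℂ x (A x)) / P.eval ξ).re)
    (y : H) : ‖inner ℂ y (aeval A P y)‖ ≤ M * ‖y‖ ^ 2 := by
  classical
  by_contra hcon
  push Not at hcon
  set z : ℂ := inner ℂ y (aeval A P y) with hz
  set R : ℝ := M * ‖y‖ ^ 2 with hR
  have hR0 : 0 ≤ R := by positivity
  have hzpos : 0 < ‖z‖ := lt_of_le_of_lt hR0 hcon
  have hz0 : z ≠ 0 := norm_pos_iff.1 hzpos
  -- the critical values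
  have hder : P.derivative ≠ 0 := by
    intro h
    have := derivative_eq_zero.1 h
    omega
  set S : Finset ℂ := P.derivative.roots.toFinset.image (fun ξ => P.eval ξ) with hS
  -- small angles
  set ε : ℝ := 1 - R / ‖z‖ with hε
  have hεpos : 0 < ε := by
    rw [hε, sub_pos, div_lt_one hzpos]
    exact hcon
  set δ : ℝ := min 1 ε with hδ
  have hδpos : 0 < δ := lt_min one_pos hεpos
  set u0 : ℂ := z / (‖z‖ : ℂ) with hu0
  have hzC : ((‖z‖ : ℝ) : ℂ) ≠ 0 := by exact_mod_cast hzpos.ne'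
  have hu0n : ‖u0‖ = 1 := by
    rw [hu0, norm_div, Complex.norm_real, norm_norm]
    exact div_self hzpos.ne'
  have hu0ne : u0 ≠ 0 := by
    intro h
    rw [h] at hu0n
    simp at hu0n
  have hMC : (M : ℂ) ≠ 0 := by exact_mod_cast hM.ne'
  set f : ℝ → ℂ := fun θ => (M : ℂ) * (u0 * Complex.exp ((θ : ℂ) * Complex.I)) with hf
  have hfinj : Set.InjOn f (Set.Ioo 0 δ) := by
    intro a ha b hb hab
    have h1 : Complex.exp ((a : ℂ) * Complex.I) = Complex.exp ((b : ℂ) * Complex.I) := by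
      have := mul_left_cancel₀ hMC hab
      exact mul_left_cancel₀ hu0ne this
    have h2 : Real.cos a = Real.cos b := by
      have := congrArg Complex.re h1
      simpa [Complex.exp_ofReal_mul_I_re] using this
    have hle : δ ≤ 1 := min_le_left _ _
    have hpi : (1 : ℝ) ≤ Real.pi := by linarith [Real.pi_gt_three]
    exact Real.injOn_cos ⟨ha.1.le, by linarith [ha.2]⟩ ⟨hb.1.le, by linarith [hb.2]⟩ h2
  have hinf : (f '' Set.Ioo 0 δ).Infinite := (Set.Ioo_infinite hδpos).image hfinj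
  obtain ⟨τ, hτmem, hτS⟩ := hinf.exists_notMem_finset S
  obtain ⟨θ, hθ, rfl⟩ := hτmem
  have hθ1 : θ < 1 := lt_of_lt_of_le hθ.2 (min_le_left _ _)
  have hθε : θ < ε := lt_of_lt_of_le hθ.2 (min_le_right _ _)
  have hfn : ‖f θ‖ = M := by
    simp only [hf, norm_mul, hu0n, Complex.norm_real, Complex.norm_exp_ofReal_mul_I,
      mul_one, Real.norm_eq_abs, abs_of_pos hM]
  have hf0 : f θ ≠ 0 := by
    intro h
    rw [h, norm_zero] at hfn
    exact hM.ne hfn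
  have hsimple : ∀ ξ, P.eval ξ = f θ → P.derivative.eval ξ ≠ 0 := by
    intro ξ hξ h0
    apply hτS
    rw [hS, Finset.mem_image]
    refine ⟨ξ, ?_, hξ⟩
    rw [Multiset.mem_toFinset, mem_roots hder]
    exact h0
  have hpoly := polygon A P hP (f θ) (f θ)⁻¹ hsimple
    (by
      intro ξ hξ x hx
      have := htan ξ (by rw [hξ]; exact hfn) x hx
      rw [hξ] at this
      convert this using 2
      field_simp) y
  -- the contradiction
  have h1 : (f θ)⁻¹ * (f θ * (‖y‖ : ℂ) ^ 2 - z)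
      = ((‖y‖ ^ 2 : ℝ) : ℂ) - (‖z‖ / M : ℝ) * Complex.exp (-((θ : ℂ) * Complex.I)) := by
    have h2 : z = (‖z‖ : ℂ) * u0 := by
      rw [hu0]; field_simp
    have h3 : Complex.exp (-((θ : ℂ) * Complex.I)) * Complex.exp ((θ : ℂ) * Complex.I) = 1 := by
      rw [← Complex.exp_add]; simp
    have h4 : Complex.exp ((θ : ℂ) * Complex.I) ≠ 0 := Complex.exp_ne_zero _
    rw [Complex.exp_neg]
    simp only [hf]
    conv_lhs => rw [h2]
    push_cast
    field_simp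
  rw [← hz, h1] at hpoly
  have h5 : (Complex.exp (-((θ : ℂ) * Complex.I))).re = Real.cos θ := by
    have : -((θ : ℂ) * Complex.I) = ((-θ : ℝ) : ℂ) * Complex.I := by push_cast; ring
    rw [this, Complex.exp_ofReal_mul_I_re, Real.cos_neg]
  rw [Complex.sub_re, Complex.ofReal_re, Complex.re_ofReal_mul, h5] at hpoly
  have h6 : 1 - θ ^ 2 / 2 ≤ Real.cos θ := Real.one_sub_sq_div_two_le_cos
  have h7 : θ ^ 2 / 2 < ε := by nlinarith [hθ.1]
  have h8 : R / ‖z‖ < Real.cos θ := by linarith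
  have h9 : R < Real.cos θ * ‖z‖ := (div_lt_iff₀ hzpos).1 h8
  have h10 : ‖z‖ / M * Real.cos θ ≤ ‖y‖ ^ 2 := by linarith
  have h11 : ‖z‖ * Real.cos θ ≤ M * ‖y‖ ^ 2 := by
    have := mul_le_mul_of_nonneg_left h10 hM.le
    have e : M * (‖z‖ / M * Real.cos θ) = ‖z‖ * Real.cos θ := by field_simp
    linarith
  rw [← hR] at h11
  linarith

/-- Tangency: a convex sublevel set lies on the inner side of the tangent of the lemniscate. -/
theorem tangency_of_convex (P : ℂ[X]) (M : ℝ) (hM : 0 < M)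
    (hconv : Convex ℝ {z : ℂ | ‖P.eval z‖ ≤ M}) (ξ a : ℂ) (hξ : ‖P.eval ξ‖ = M)
    (ha : ‖P.eval a‖ ≤ M) :
    0 ≤ (P.derivative.eval ξ * (ξ - a) / P.eval ξ).re := by
  set τ : ℂ := P.eval ξ with hτ
  have hτ0 : τ ≠ 0 := by
    intro h
    rw [h, norm_zero] at hξ
    exact hM.ne hξ
  set e : ℂ → ℂ := fun w => P.eval (ξ + w * (a - ξ)) / τ with he
  have hderiv : HasDerivAt e (P.derivative.eval ξ * (a - ξ) / τ) ((0 : ℝ) : ℂ) := by
    have h1 : HasDerivAt (fun w : ℂ => ξ + w * (a - ξ)) (a - ξ) ((0 : ℝ) : ℂ) := by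
      simpa using ((hasDerivAt_id ((0 : ℝ) : ℂ)).mul_const (a - ξ)).const_add ξ
    have h2 : HasDerivAt (fun z : ℂ => P.eval z) (P.derivative.eval ξ)
        (ξ + ((0 : ℝ) : ℂ) * (a - ξ)) := by
      simpa using P.hasDerivAt ξ
    exact (h2.comp ((0 : ℝ) : ℂ) h1).div_const τ
  have hreal := hderiv.real_of_complex
  have hslope := hreal.tendsto_slope_zero_right
  have hle : ∀ t : ℝ, 0 < t → t < 1 → (e ((t : ℝ) : ℂ)).re ≤ 1 := by
    intro t ht0 ht1
    have hmem : ξ + (t : ℂ) * (a - ξ) ∈ {z : ℂ | ‖P.eval z‖ ≤ M} := by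
      have := hconv (x := ξ) (y := a) (by simp [hξ, ← hτ]) ha
        (a := 1 - t) (b := t) (by linarith) ht0.le (by ring)
      convert this using 1
      simp only [Complex.real_smul]
      push_cast
      ring
    have hb : ‖e (t : ℂ)‖ ≤ 1 := by
      simp only [he, norm_div]
      rw [hξ, div_le_one hM]
      exact hmem
    exact (Complex.re_le_norm _).trans hb
  have h0 : (e ((0 : ℝ) : ℂ)).re = 1 := by
    simp only [he]
    have : P.eval (ξ + ((0 : ℝ) : ℂ) * (a - ξ)) = τ := by simp [hτ]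
    rw [this, div_self hτ0]
    simp
  have hlim : (P.derivative.eval ξ * (a - ξ) / τ).re ≤ 0 := by
    refine le_of_tendsto hslope ?_
    filter_upwards [Ioo_mem_nhdsGT (show (0 : ℝ) < 1 by norm_num)] with t ht
    have := hle t ht.1 ht.2
    simp only [zero_add, smul_eq_mul]
    rw [h0]
    exact mul_nonpos_of_nonneg_of_nonpos (inv_nonneg.2 ht.1.le) (by linarith)
  have heq : P.derivative.eval ξ * (ξ - a) / τ = - (P.derivative.eval ξ * (a - ξ) / τ) := by ring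
  rw [heq, Complex.neg_re]
  linarith

/-- Theorem A: convex level sets. -/
theorem convex_level_bound (A : H →L[ℂ] H) (P : ℂ[X]) (M : ℝ) (hM : 0 < M)
    (hconv : Convex ℝ {z : ℂ | ‖P.eval z‖ ≤ M})
    (hW : ∀ x : H, ‖x‖ = 1 → ‖P.eval (inner ℂ x (A x))‖ ≤ M) (y : H) :
    ‖inner ℂ y (aeval A P y)‖ ≤ M * ‖y‖ ^ 2 := by
  by_cases hP : 0 < P.natDegree
  · refine tangent_bound A P hP M hM ?_ y
    intro ξ hξ x hx
    exact tangency_of_convex P M hM hconv ξ _ hξ (hW x hx)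
  · have h0 : P.natDegree = 0 := by omega
    rw [eq_C_of_natDegree_eq_zero h0] at hW ⊢
    by_cases hy : y = 0
    · simp [hy]
    · have hn : ‖y‖ ≠ 0 := norm_ne_zero_iff.2 hy
      have hnC : ((‖y‖ : ℝ) : ℂ) ≠ 0 := by exact_mod_cast hn
      have hx : ‖((‖y‖ : ℝ) : ℂ)⁻¹ • y‖ = 1 := by
        rw [norm_smul, norm_inv, Complex.norm_real, norm_norm]
        exact inv_mul_cancel₀ hn
      have := hW _ hx
      simp only [eval_C] at this
      have e1 : (inner ℂ y (aeval A (C (P.coeff 0)) y) : ℂ) = P.coeff 0 * ((‖y‖ : ℝ) : ℂ) ^ 2 := by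
        simp [aeval_C, Algebra.algebraMap_eq_smul_one,
          inner_self_eq_norm_sq_to_K]
      rw [e1, norm_mul, norm_pow, Complex.norm_real, norm_norm]
      gcongr

/-- Tangency for a quadratic whose level is at least twice the modulus of its critical value. -/
theorem tangency_quadratic (a e d : ℂ) (ha : a ≠ 0) (M : ℝ) (hM : 0 < M) (hd : 2 * ‖d‖ ≤ M)
    (ξ w : ℂ)
    (hξ : ‖(C a * (X - C e) ^ 2 + C d : ℂ[X]).eval ξ‖ = M)
    (hw : ‖(C a * (X - C e) ^ 2 + C d : ℂ[X]).eval w‖ ≤ M) :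
    0 ≤ ((C a * (X - C e) ^ 2 + C d : ℂ[X]).derivative.eval ξ * (ξ - w) /
      (C a * (X - C e) ^ 2 + C d : ℂ[X]).eval ξ).re := by
  have hder : (C a * (X - C e) ^ 2 + C d : ℂ[X]).derivative.eval ξ = 2 * a * (ξ - e) := by
    simp [derivative_mul, derivative_pow]
    ring
  have hev : ∀ z : ℂ, (C a * (X - C e) ^ 2 + C d : ℂ[X]).eval z = a * (z - e) ^ 2 + d := by
    intro z
    simp
  rw [hder]
  rw [hev] at hξ hw ⊢
  set x : ℂ := ξ - e with hx
  set b : ℂ := w - e with hb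
  set τ : ℂ := a * x ^ 2 + d with hτ
  have hτ0 : τ ≠ 0 := by
    intro h
    rw [h, norm_zero] at hξ
    exact hM.ne hξ
  have hτn : 0 < ‖τ‖ := norm_pos_iff.2 hτ0
  set y : ℂ := a * x * (b - x) / τ with hy
  have hmain : ‖(a * b ^ 2 + d) / τ‖ ≤ 1 := by
    rw [norm_div, hξ, div_le_one hM]
    exact hw
  have hid : (a * b ^ 2 + d) / τ = (1 + y) ^ 2 + a * (b - x) ^ 2 * d / τ ^ 2 := by
    have hd' : d = τ - a * x ^ 2 := by rw [hτ]; ring
    rw [hy]
    field_simp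
    rw [hd']
    ring
  have hsmall : ‖a * (b - x) ^ 2 * d / τ ^ 2‖ ≤ ‖y‖ ^ 2 := by
    have h1 : ‖d‖ ≤ ‖a‖ * ‖x‖ ^ 2 := by
      have h2 : ‖τ‖ ≤ ‖a * x ^ 2‖ + ‖d‖ := norm_add_le _ _
      rw [hξ, norm_mul, norm_pow] at h2
      linarith
    have e2 : ‖y‖ = ‖a‖ * ‖x‖ * ‖b - x‖ / ‖τ‖ := by rw [hy, norm_div, norm_mul, norm_mul]
    have e3 : ‖a * (b - x) ^ 2 * d / τ ^ 2‖ = ‖a‖ * ‖b - x‖ ^ 2 * ‖d‖ / ‖τ‖ ^ 2 := by
      simp only [norm_div, norm_mul, norm_pow]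
    have h3 : 0 < ‖τ‖ ^ 2 := by positivity
    rw [e2, e3, div_pow, div_le_div_iff_of_pos_right h3]
    calc ‖a‖ * ‖b - x‖ ^ 2 * ‖d‖ ≤ ‖a‖ * ‖b - x‖ ^ 2 * (‖a‖ * ‖x‖ ^ 2) := by gcongr
      _ = _ := by ring
  have hlow : ‖1 + y‖ ^ 2 - ‖y‖ ^ 2 = 1 + 2 * y.re := by
    rw [Complex.sq_norm, Complex.sq_norm, Complex.normSq_apply, Complex.normSq_apply]
    simp
    ring
  have hsq : ‖(1 + y) ^ 2‖ = ‖1 + y‖ ^ 2 := norm_pow _ _
  have h4 : ‖(1 + y) ^ 2‖ - ‖a * (b - x) ^ 2 * d / τ ^ 2‖ ≤ ‖(a * b ^ 2 + d) / τ‖ := by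
    rw [hid]
    have := norm_sub_le ((1 + y) ^ 2 + a * (b - x) ^ 2 * d / τ ^ 2) (a * (b - x) ^ 2 * d / τ ^ 2)
    simp only [add_sub_cancel_right] at this
    linarith
  have hyre : y.re ≤ 0 := by
    rw [hsq] at h4
    linarith
  have hfin : 2 * a * x * (ξ - w) / τ = -(2 * y) := by
    have : ξ - w = x - b := by rw [hx, hb]; ring
    rw [this, hy]
    field_simp
    ring
  rw [hfin, Complex.neg_re]
  have : (2 * y).re = 2 * y.re := by simp
  rw [this]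
  linarith

end Vale.Agent.P123
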