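import Vale.Agent.P123.Defs

namespace Vale.Agent.P123

open ComplexConjugate

/-- The real inequality behind the convexity of the level sets of `z² - c`. -/
lemma real_key {g₁ g₂ x y : ℝ} (hg : 3 * (g₁ ^ 2 + g₂ ^ 2) - 8 * g₁ + 4 ≤ 0) (hx : 0 ≤ x) :
    1 ≤ (1 + 2 * x + g₁ * (x ^ 2 - y ^ 2) - 2 * g₂ * (x * y)) ^ 2
      + (2 * y + g₂ * (x ^ 2 - y ^ 2) + 2 * g₁ * (x * y)) ^ 2 := by
  set N := g₁ ^ 2 + g₂ ^ 2 with hN
  set τ := x + x ^ 2 + y ^ 2 with hτ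
  have hg1 : g₁ ≤ 2 := by nlinarith [sq_nonneg g₂, sq_nonneg (g₁ - 2)]
  have hg0 : 2 / 3 ≤ g₁ := by nlinarith [sq_nonneg g₂, sq_nonneg (g₁ - 2 / 3)]
  have hNpos : 0 < N := by rw [hN]; nlinarith [sq_nonneg g₂]
  have hτ0 : 0 ≤ τ := by rw [hτ]; positivity
  have e : (1 + 2 * x + g₁ * (x ^ 2 - y ^ 2) - 2 * g₂ * (x * y)) ^ 2
      + (2 * y + g₂ * (x ^ 2 - y ^ 2) + 2 * g₁ * (x * y)) ^ 2 - 1
      = 4 * x + x * τ * (4 * g₁ - 2 * N) + x ^ 2 * (N - 2 * g₁ + 4)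
        + ((4 - 2 * g₁) * y ^ 2 - 4 * g₂ * y * τ + N * τ ^ 2) := by
    rw [hN, hτ]; ring
  have h1 : 0 ≤ 4 * g₁ - 2 * N := by rw [hN]; nlinarith
  have h2 : 0 ≤ N - 2 * g₁ + 4 := by rw [hN]; nlinarith [sq_nonneg (g₁ - 1), sq_nonneg g₂]
  have h3 : 0 ≤ (4 - 2 * g₁) * N - 4 * g₂ ^ 2 := by
    have h4 : 3 * g₂ ^ 2 ≤ (2 - g₁) * (3 * g₁ - 2) := by nlinarith
    have h5 : 0 ≤ N - 2 * g₁ + 4 / 3 := by rw [hN]; nlinarith [sq_nonneg (g₁ - 1), sq_nonneg g₂]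
    have h6 : 0 ≤ (2 - g₁) * (N - 2 * g₁ + 4 / 3) := mul_nonneg (by linarith) h5
    nlinarith
  have h7 : 0 ≤ (4 - 2 * g₁) * y ^ 2 - 4 * g₂ * y * τ + N * τ ^ 2 := by
    have h8 : N * ((4 - 2 * g₁) * y ^ 2 - 4 * g₂ * y * τ + N * τ ^ 2)
        = (N * τ - 2 * g₂ * y) ^ 2 + y ^ 2 * ((4 - 2 * g₁) * N - 4 * g₂ ^ 2) := by ring
    have h9 : 0 ≤ N * ((4 - 2 * g₁) * y ^ 2 - 4 * g₂ * y * τ + N * τ ^ 2) := by
      rw [h8]; positivity
    exact nonneg_of_mul_nonneg_right h9 hNpos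
  have h10 : 0 ≤ x * τ * (4 * g₁ - 2 * N) := by positivity
  have h11 : 0 ≤ x ^ 2 * (N - 2 * g₁ + 4) := by positivity
  linarith

/-- The complex form: `1 ≤ |1 + 2 h + g h²|` on the closed right half-plane. -/
lemma complex_key {g h : ℂ} (hg : 4 * Complex.normSq (1 - g) ≤ Complex.normSq g) (hh : 0 ≤ h.re) :
    1 ≤ ‖1 + 2 * h + g * h ^ 2‖ := by
  have h1 : 3 * (g.re ^ 2 + g.im ^ 2) - 8 * g.re + 4 ≤ 0 := by
    simp only [Complex.normSq_apply, Complex.sub_re, Complex.sub_im, Complex.one_re,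
      Complex.one_im] at hg
    nlinarith
  have h2 := real_key (y := h.im) h1 hh
  have h3 : Complex.normSq (1 + 2 * h + g * h ^ 2)
      = (1 + 2 * h.re + g.re * (h.re ^ 2 - h.im ^ 2) - 2 * g.im * (h.re * h.im)) ^ 2
      + (2 * h.im + g.im * (h.re ^ 2 - h.im ^ 2) + 2 * g.re * (h.re * h.im)) ^ 2 := by
    simp only [Complex.normSq_apply, Complex.add_re, Complex.add_im, Complex.mul_re, Complex.mul_im,
      Complex.one_re, Complex.one_im, pow_two, Complex.re_ofNat, Complex.im_ofNat]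
    ring
  have h4 : 1 ≤ Complex.normSq (1 + 2 * h + g * h ^ 2) := by rw [h3]; exact h2
  have h5 : Complex.normSq (1 + 2 * h + g * h ^ 2) = ‖1 + 2 * h + g * h ^ 2‖ ^ 2 :=
    Complex.normSq_eq_norm_sq _
  rw [h5] at h4
  nlinarith [norm_nonneg (1 + 2 * h + g * h ^ 2)]

/-- Tangent lines of the level curves of `z² - c` at levels at least `2 |c|` are supporting lines of
the smaller level sets. -/
lemma tangent_key {a c r : ℂ} (h1 : ‖a ^ 2 - c‖ < ‖r ^ 2 - c‖) (h2 : 2 * ‖c‖ ≤ ‖r ^ 2 - c‖) :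
    0 < (((r - a) * r) / (r ^ 2 - c)).re := by
  set lam := r ^ 2 - c with hlam
  have hlam0 : lam ≠ 0 := by
    intro h
    rw [h, norm_zero] at h1
    exact absurd h1 (not_lt.mpr (norm_nonneg _))
  have hlampos : 0 < ‖lam‖ := norm_pos_iff.mpr hlam0
  have hr0 : r ≠ 0 := by
    intro h
    have h3 : lam = -c := by rw [hlam, h]; simp
    have h4 : ‖lam‖ = ‖c‖ := by rw [h3, norm_neg]
    rw [h4] at h2 hlampos
    linarith
  set g := lam / r ^ 2 with hg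
  have hg0 : g ≠ 0 := div_ne_zero hlam0 (pow_ne_zero 2 hr0)
  set h := ((a - r) * r) / lam with hh
  -- by contradiction
  by_contra hcon
  have hre : 0 ≤ h.re := by
    have e : h = - (((r - a) * r) / lam) := by rw [hh]; ring
    rw [e, Complex.neg_re]
    linarith
  have hgc : 4 * Complex.normSq (1 - g) ≤ Complex.normSq g := by
    -- 1 - g = c / r², g = lam / r²
    have e1 : 1 - g = c / r ^ 2 := by
      rw [hg, hlam]; field_simp; ring
    rw [e1, hg, Complex.normSq_eq_norm_sq, Complex.normSq_eq_norm_sq, norm_div, norm_div]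
    have h3 : 0 < ‖r ^ 2‖ := norm_pos_iff.mpr (pow_ne_zero 2 hr0)
    rw [div_pow, div_pow]
    have h4 : ‖c‖ ^ 2 * 4 ≤ ‖lam‖ ^ 2 := by nlinarith [norm_nonneg c]
    rw [← mul_div_assoc]
    apply div_le_div_of_nonneg_right _ (by positivity)
    linarith
  have hkey := complex_key hgc hre
  have e2 : 1 + 2 * h + g * h ^ 2 = (a ^ 2 - c) / lam := by
    rw [hh, hg]
    have : c = r ^ 2 - lam := by rw [hlam]; ring
    rw [this]
    field_simp
    ring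
  rw [e2, norm_div, le_div_iff₀ hlampos, one_mul] at hkey
  linarith

/-- The level sets of `z² - c` at levels at least `2 |c|` are convex. -/
lemma level_convex {a b c : ℂ} {S : ℝ} (hc : 2 * ‖c‖ ≤ S) (ha : ‖a ^ 2 - c‖ ≤ S)
    (hb : ‖b ^ 2 - c‖ ≤ S) {t : ℝ} (ht0 : 0 ≤ t) (ht1 : t ≤ 1) :
    ‖((t : ℂ) * a + ((1 - t : ℝ) : ℂ) * b) ^ 2 - c‖ ≤ S := by
  by_contra hcon
  have hcon' : S < ‖((t : ℂ) * a + ((1 - t : ℝ) : ℂ) * b) ^ 2 - c‖ := not_le.mp hcon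
  set r := (t : ℂ) * a + ((1 - t : ℝ) : ℂ) * b with hr
  have h1 := tangent_key (a := a) (c := c) (r := r) (by linarith) (by linarith)
  have h2 := tangent_key (a := b) (c := c) (r := r) (by linarith) (by linarith)
  have e : (t : ℂ) * (((r - a) * r) / (r ^ 2 - c)) + ((1 - t : ℝ) : ℂ) * (((r - b) * r) / (r ^ 2 - c)) = 0 := by
    have : (t : ℂ) * (r - a) + ((1 - t : ℝ) : ℂ) * (r - b) = 0 := by
      rw [hr]; push_cast; ring
    calc _ = ((t : ℂ) * (r - a) + ((1 - t : ℝ) : ℂ) * (r - b)) * (r / (r ^ 2 - c)) := by ring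
      _ = 0 := by rw [this, zero_mul]
  have h3 := congrArg Complex.re e
  simp only [Complex.add_re, Complex.mul_re, Complex.ofReal_re, Complex.ofReal_im, zero_mul,
    sub_zero, Complex.zero_re] at h3
  rcases lt_or_ge 0 t with h4 | h4
  · have h5 : 0 < t * (((r - a) * r) / (r ^ 2 - c)).re := mul_pos h4 h1
    have h6 : 0 ≤ (1 - t) * (((r - b) * r) / (r ^ 2 - c)).re :=
      mul_nonneg (by linarith) h2.le
    linarith
  · have h7 : t = 0 := le_antisymm h4 ht0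
    rw [h7] at h3
    simp only [zero_mul, zero_add, sub_zero, one_mul] at h3
    linarith

end Vale.Agent.P123
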