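import Mathlib

open Polynomial

namespace Vale.Agent.P123

variable {H : Type*} [NormedAddCommGroup H] [InnerProductSpace ℂ H]

/-- The numerical range of `A`: all `⟨A x, x⟩` (written `inner ℂ x (A x)`) with `x` a unit vector. -/
def numRange (A : H →L[ℂ] H) : Set ℂ := {w | ∃ x : H, ‖x‖ = 1 ∧ w = inner ℂ x (A x)}

/-- The operator `α A² + β A + γ`. -/
noncomputable def quadOp (α β γ : ℂ) (A : H →L[ℂ] H) : H →L[ℂ] H :=
  α • (A * A) + β • A + γ • (1 : H →L[ℂ] H)

/-- The symmetrised hull: the convex hull of the numerical range and of its reflection about the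
point `-β / (2 α)`, the critical point of `α z² + β z + γ`. -/
def symHull (α β : ℂ) (A : H →L[ℂ] H) : Set ℂ :=
  convexHull ℝ (numRange A ∪ (fun z => -β / α - z) '' numRange A)

/-- The conclusion at level `M`: numerical radius of `P(A)` at most `M`, norm at most `2 M`. -/
def Bound (A : H →L[ℂ] H) (P : ℂ[X]) (M : ℝ) : Prop :=
  (∀ y : H, ‖inner ℂ y (aeval A P y)‖ ≤ M * ‖y‖ ^ 2) ∧ ‖aeval A P‖ ≤ 2 * M

/-- The polynomial `a (z - e)^n + d`. -/
noncomputable def binom (n : ℕ) (a e d : ℂ) : ℂ[X] := C a * (X - C e) ^ n + C d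

end Vale.Agent.P123
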