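import Vale.Agent.P123.Operator

namespace Vale.Agent.P123

open Polynomial ComplexConjugate Filter Topology

variable {H : Type*} [NormedAddCommGroup H] [InnerProductSpace ℂ H]

/-- The tangent line at a point of a convex level curve supports the strictly smaller sublevel set. -/
lemma tangent_neg (P : ℂ[X]) {r a : ℂ} {s : ℝ} (hr : ‖P.eval r‖ = s) (hs0 : 0 < s)
    (ha : ‖P.eval a‖ < s) (hconv : Convex ℝ {z : ℂ | ‖P.eval z‖ ≤ s})
    (hder : P.derivative.eval r ≠ 0) :
    ((a - r) * P.derivative.eval r / P.eval r).re < 0 := by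
  have hPr : P.eval r ≠ 0 := by
    intro h
    rw [h, norm_zero] at hr
    linarith
  set q : ℂ := P.derivative.eval r / P.eval r with hq
  have hq0 : q ≠ 0 := div_ne_zero hder hPr
  have hqq : 0 < Complex.normSq q := Complex.normSq_pos.mpr hq0
  have e0 : (a - r) * P.derivative.eval r / P.eval r = (a - r) * q := by rw [hq]; ring
  rw [e0]
  by_contra hcon
  have hcon' : 0 ≤ ((a - r) * q).re := not_lt.mp hcon
  -- move `a` slightly in the normal direction
  have hcont : Continuous fun δ : ℝ => ‖P.eval (a + (δ : ℂ) * conj q)‖ := by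
    have h1 : Continuous fun δ : ℝ => a + (δ : ℂ) * conj q := by fun_prop
    exact (P.continuous.comp h1).norm
  have hev : ∀ᶠ δ : ℝ in 𝓝[>] 0, ‖P.eval (a + (δ : ℂ) * conj q)‖ < s := by
    apply nhdsWithin_le_nhds
    apply hcont.continuousAt.eventually_lt_const
    simpa using ha
  obtain ⟨δ, hδ, hδ0⟩ := (hev.and self_mem_nhdsWithin).exists
  have hδpos : 0 < δ := hδ0
  set a' : ℂ := a + (δ : ℂ) * conj q with ha'
  set v : ℂ := a' - r with hv
  have hvq : 0 < (v * q).re := by
    have e1 : v * q = (a - r) * q + (δ : ℂ) * (conj q * q) := by rw [hv, ha']; ring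
    rw [e1, Complex.add_re, Complex.normSq_eq_conj_mul_self.symm, Complex.re_ofReal_mul,
      Complex.ofReal_re]
    have := mul_pos hδpos hqq
    linarith
  -- the squared modulus along the segment
  set f : ℝ → ℝ := fun t => ‖P.eval (r + (t : ℂ) * v)‖ ^ 2 with hf
  have hG : HasDerivAt (fun z : ℂ => P.eval (r + z * v)) (P.derivative.eval r * v) ((0 : ℝ) : ℂ) := by
    have h1 : HasDerivAt (fun z : ℂ => r + z * v) v ((0 : ℝ) : ℂ) := by
      simpa using ((hasDerivAt_id ((0 : ℝ) : ℂ)).mul_const v).const_add r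
    have h2 : HasDerivAt (fun z : ℂ => P.eval z) (P.derivative.eval r) (r + ((0 : ℝ) : ℂ) * v) := by
      simpa using P.hasDerivAt r
    exact h2.comp ((0 : ℝ) : ℂ) h1
  have hg : HasDerivAt (fun t : ℝ => P.eval (r + (t : ℂ) * v)) (P.derivative.eval r * v) 0 :=
    hG.comp_ofReal
  have hfd := hg.norm_sq
  have hval : 2 * inner ℝ (P.eval (r + ((0 : ℝ) : ℂ) * v)) (P.derivative.eval r * v)
      = 2 * (s ^ 2 * (v * q).re) := by
    congr 1
    have e1 : r + ((0 : ℝ) : ℂ) * v = r := by simp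
    rw [e1, Complex.inner]
    have e2 : (P.derivative.eval r * v) * conj (P.eval r) = ((s ^ 2 : ℝ) : ℂ) * (v * q) := by
      have e3 : ((s ^ 2 : ℝ) : ℂ) = conj (P.eval r) * P.eval r := by
        rw [← Complex.normSq_eq_conj_mul_self, Complex.normSq_eq_norm_sq, hr]
      rw [e3, hq]
      field_simp
    rw [e2, Complex.re_ofReal_mul]
  rw [hval] at hfd
  have hpos : 0 < 2 * (s ^ 2 * (v * q).re) := by positivity
  have hslope := hasDerivAt_iff_tendsto_slope.mp hfd
  have hev2 : ∀ᶠ t : ℝ in 𝓝[>] 0, 0 < slope (fun t : ℝ => ‖P.eval (r + (t : ℂ) * v)‖ ^ 2) 0 t := by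
    have h1 : ∀ᶠ t : ℝ in 𝓝[≠] 0, 0 < slope (fun t : ℝ => ‖P.eval (r + (t : ℂ) * v)‖ ^ 2) 0 t :=
      hslope.eventually (lt_mem_nhds hpos)
    exact h1.filter_mono (nhdsWithin_mono _ (fun x hx => ne_of_gt hx))
  have hI : Set.Ioo (0 : ℝ) 1 ∈ 𝓝[>] (0 : ℝ) := Ioo_mem_nhdsGT one_pos
  obtain ⟨t, ht1, ht2⟩ := (hev2.and hI).exists
  have ht0 : 0 < t := ht2.1
  have ht3 : t < 1 := ht2.2
  -- the segment stays in the sublevel set
  have hmem : r + (t : ℂ) * v ∈ {z : ℂ | ‖P.eval z‖ ≤ s} := by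
    have hr' : r ∈ {z : ℂ | ‖P.eval z‖ ≤ s} := le_of_eq hr
    have ha'' : a' ∈ {z : ℂ | ‖P.eval z‖ ≤ s} := hδ.le
    have := hconv hr' ha'' (by linarith : 0 ≤ 1 - t) ht0.le (by ring)
    have e1 : (1 - t) • r + t • a' = r + (t : ℂ) * v := by
      rw [hv, Complex.real_smul, Complex.real_smul]
      push_cast
      ring
    rwa [e1] at this
  have hle : ‖P.eval (r + (t : ℂ) * v)‖ ≤ s := hmem
  have hslope2 : slope (fun t : ℝ => ‖P.eval (r + (t : ℂ) * v)‖ ^ 2) 0 t
      = (t - 0)⁻¹ • (‖P.eval (r + (t : ℂ) * v)‖ ^ 2 - s ^ 2) := by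
    rw [slope_def_module]
    simp [hr]
  rw [hslope2, smul_eq_mul] at ht1
  have h3 : 0 < ‖P.eval (r + (t : ℂ) * v)‖ ^ 2 - s ^ 2 := by
    have h4 : 0 < (t - 0)⁻¹ := by
      rw [sub_zero]; positivity
    exact (pos_iff_pos_of_mul_pos ht1).mp h4
  have h5 : ‖P.eval (r + (t : ℂ) * v)‖ ^ 2 ≤ s ^ 2 :=
    pow_le_pow_left₀ (norm_nonneg _) hle 2
  linarith

/-- Critical values above the level `S` cannot occur when all sublevel sets above `S` are convex. -/
lemma derivative_ne_zero_of_convex (P : ℂ[X]) (hP : 0 < P.natDegree) {S : ℝ} (hS0 : 0 ≤ S)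
    (hconv : ∀ s, S < s → Convex ℝ {z : ℂ | ‖P.eval z‖ ≤ s}) {r : ℂ} (hr : S < ‖P.eval r‖) :
    P.derivative.eval r ≠ 0 := by
  intro hd
  have hdeg : 0 < P.degree := natDegree_pos_iff_degree_pos.mp hP
  have hd0 : P.derivative ≠ 0 := by
    intro h
    have := Polynomial.derivative_eq_zero.mp h
    omega
  have hmem : r ∈ P.derivative.rootSet ℂ := by
    rw [mem_rootSet]
    exact ⟨hd0, by simpa using hd⟩
  have hhull := rootSet_derivative_subset_convexHull_rootSet hdeg hmem
  set s : ℝ := (S + ‖P.eval r‖) / 2 with hs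
  have hs1 : S < s := by rw [hs]; linarith
  have hs2 : s < ‖P.eval r‖ := by rw [hs]; linarith
  have hsub : P.rootSet ℂ ⊆ {z : ℂ | ‖P.eval z‖ ≤ s} := by
    intro z hz
    rw [mem_rootSet] at hz
    have : P.eval z = 0 := by simpa using hz.2
    show ‖P.eval z‖ ≤ s
    rw [this, norm_zero]
    linarith
  have := convexHull_min hsub (hconv s hs1) hhull
  have h3 : ‖P.eval r‖ ≤ s := this
  linarith

/-- The numerical range of `P(A)` stays in the disc when the sublevel sets of `|P|` above the disc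
radius are convex. -/
lemma general_numRange (A : H →L[ℂ] H) (P : ℂ[X]) (hP : 0 < P.natDegree) {S : ℝ}
    (hW : ∀ z ∈ numRange A, ‖P.eval z‖ ≤ S)
    (hconv : ∀ s, S < s → Convex ℝ {z : ℂ | ‖P.eval z‖ ≤ s}) :
    ∀ z ∈ numRange (aeval A P), ‖z‖ ≤ S := by
  classical
  rintro z ⟨x, hx, rfl⟩
  set lam : ℂ := inner ℂ x (aeval A P x) with hlam
  by_contra hcon
  have hlamS : S < ‖lam‖ := not_le.mp hcon
  have hne : (numRange A).Nonempty := ⟨_, x, hx, rfl⟩
  obtain ⟨a0, ha0⟩ := hne
  have hS0 : 0 ≤ S := (norm_nonneg _).trans (hW a0 ha0)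
  have hlampos : 0 < ‖lam‖ := lt_of_le_of_lt hS0 hlamS
  have hlam0 : lam ≠ 0 := norm_pos_iff.mp hlampos
  have hxx : inner ℂ x x = (1 : ℂ) := by
    rw [inner_self_c, hx]; simp
  -- the roots of P - lam
  set Q : ℂ[X] := P - C lam with hQ
  have hQdeg : Q.natDegree = P.natDegree := natDegree_sub_C
  have hQ0 : Q ≠ 0 := by
    intro h
    rw [h, natDegree_zero] at hQdeg
    omega
  have hQsplit : Q.Splits := IsAlgClosed.splits Q
  have hrootval : ∀ r ∈ Q.roots, P.eval r = lam := by
    intro r hr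
    have h1 := (mem_roots hQ0).mp hr
    simp only [IsRoot, hQ, eval_sub, eval_C] at h1
    exact sub_eq_zero.mp h1
  have hrootder : ∀ r ∈ Q.roots, P.derivative.eval r ≠ 0 := by
    intro r hr
    apply derivative_ne_zero_of_convex P hP hS0 hconv
    rw [hrootval r hr]
    exact hlamS
  have hderQ : Q.derivative = P.derivative := by
    rw [hQ, derivative_sub, derivative_C, sub_zero]
  have hnodup : Q.roots.Nodup := by
    rw [Multiset.nodup_iff_count_le_one]
    intro r
    rw [count_roots]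
    by_contra hcount
    have h1 : 1 < rootMultiplicity r Q := not_le.mp hcount
    have h2 := (one_lt_rootMultiplicity_iff_isRoot hQ0).mp h1
    have h3 : r ∈ Q.roots := (mem_roots hQ0).mpr h2.1
    apply hrootder r h3
    rw [← hderQ]
    exact h2.2
  set R : Finset ℂ := Q.roots.toFinset with hR
  have hRmem : ∀ r, r ∈ R ↔ r ∈ Q.roots := by
    intro r; rw [hR, Multiset.mem_toFinset]
  set ell : ℂ := Q.leadingCoeff with hell
  have hell0 : ell ≠ 0 := leadingCoeff_ne_zero.mpr hQ0
  have hQprod : Q = C ell * Lagrange.nodal R id := by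
    have h1 := hQsplit.eq_prod_roots
    have h2 : Lagrange.nodal R id = (Q.roots.map (fun a => X - C a)).prod := by
      rw [Lagrange.nodal_eq, Finset.prod_eq_multiset_prod, hR, Multiset.toFinset_val,
        Multiset.dedup_eq_self.mpr hnodup]
      rfl
    rw [h2]
    exact h1
  have hRne : R.Nonempty := by
    by_contra hemp
    rw [Finset.not_nonempty_iff_eq_empty] at hemp
    have h1 : Lagrange.nodal R id = 1 := by rw [hemp]; simp
    rw [h1, mul_one] at hQprod
    have h2 : Q.natDegree = 0 := by rw [hQprod]; simp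
    omega
  have hinj : Set.InjOn (id : ℂ → ℂ) (R : Set ℂ) := Function.injective_id.injOn
  -- the Lagrange decomposition of x
  set B : ℂ → ℂ[X] := fun j => Lagrange.basis R id j with hB
  set w : ℂ → ℂ := fun j => Lagrange.nodalWeight R id j with hw
  set v : ℂ → H := fun j => aeval A (B j) x with hv
  have hsum : ∑ j ∈ R, v j = x := by
    have h1 : ∑ j ∈ R, B j = 1 := Lagrange.sum_basis hinj hRne
    have h2 : aeval A (∑ j ∈ R, B j) x = x := by rw [h1]; simp
    rw [map_sum] at h2
    simpa [hv, ContinuousLinearMap.sum_apply] using h2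
  set y : H := aeval A (Lagrange.nodal R id) x with hy
  have hB_mul : ∀ j ∈ R, (X - C j) * B j = C (w j) * Lagrange.nodal R id := by
    intro j hj
    have h1 : B j = C (w j) * Lagrange.nodal (R.erase j) id := by
      simp only [hB, hw, Lagrange.basis, Lagrange.basisDivisor, Lagrange.nodalWeight,
        Lagrange.nodal, Finset.prod_mul_distrib, map_prod, id]
    have h2 := Lagrange.nodal_eq_mul_nodal_erase (s := R) (v := id) hj
    rw [h1, h2]
    simp only [id]
    ring
  have hAv : ∀ j ∈ R, A (v j) - j • v j = w j • y := by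
    intro j hj
    have h1 := congrArg (fun p => aeval A p x) (hB_mul j hj)
    simp only [map_mul, map_sub, aeval_X, aeval_C] at h1
    have e1 : (algebraMap ℂ (H →L[ℂ] H) j) = j • (1 : H →L[ℂ] H) := Algebra.algebraMap_eq_smul_one j
    have e2 : (algebraMap ℂ (H →L[ℂ] H) (w j)) = (w j) • (1 : H →L[ℂ] H) :=
      Algebra.algebraMap_eq_smul_one _
    rw [e1, e2] at h1
    simpa [hv, hy, sub_mul, smul_mul_assoc] using h1
  -- orthogonality
  have hxy : inner ℂ x y = (0 : ℂ) := by
    have h1 : aeval A Q x = ell • y := by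
      rw [hQprod, map_mul, aeval_C, hy]
      have e2 : (algebraMap ℂ (H →L[ℂ] H) ell) = ell • (1 : H →L[ℂ] H) :=
        Algebra.algebraMap_eq_smul_one _
      rw [e2]
      simp [smul_mul_assoc]
    have h2 : aeval A Q x = aeval A P x - lam • x := by
      rw [hQ, map_sub, aeval_C]
      have e2 : (algebraMap ℂ (H →L[ℂ] H) lam) = lam • (1 : H →L[ℂ] H) :=
        Algebra.algebraMap_eq_smul_one _
      rw [e2]
      simp
    have h3 : ell * inner ℂ x y = inner ℂ x (aeval A P x) - lam := by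
      rw [← inner_smul_right, ← h1, h2, inner_sub_right, inner_smul_right, hxx, mul_one]
    rw [← hlam, sub_self] at h3
    exact (mul_eq_zero.mp h3).resolve_left hell0
  -- the weights
  have hwne : ∀ j ∈ R, w j ≠ 0 := fun j hj => Lagrange.nodalWeight_ne_zero hinj hj
  have hder : ∀ j ∈ R, P.derivative.eval j = ell * (w j)⁻¹ := by
    intro j hj
    have h1 : w j = (eval (id j) (derivative (Lagrange.nodal R id)))⁻¹ :=
      Lagrange.nodalWeight_eq_eval_derivative_nodal hj
    have h2 : P.derivative = C ell * derivative (Lagrange.nodal R id) := by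
      rw [← hderQ]
      conv_lhs => rw [hQprod]
      rw [derivative_C_mul]
    rw [h2, eval_mul, eval_C, h1, inv_inv]
    rfl
  -- expand
  have hterm : ∀ j ∈ R, ∃ a ∈ numRange A, inner ℂ (v j) y
      = (w j)⁻¹ * (((‖v j‖ ^ 2 : ℝ) : ℂ) * (a - j)) := by
    intro j hj
    obtain ⟨a, ha, e⟩ := rayleigh' A ⟨a0, ha0⟩ (v j)
    refine ⟨a, ha, ?_⟩
    have h1 : y = (w j)⁻¹ • (A (v j) - j • v j) := by
      rw [hAv j hj, smul_smul, inv_mul_cancel₀ (hwne j hj), one_smul]
    rw [h1, inner_smul_right, inner_sub_right, inner_smul_right, inner_self_c, e]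
    ring
  choose! a haW hae using hterm
  have hzero : ∑ j ∈ R, ((‖v j‖ ^ 2 : ℝ) : ℂ) * ((a j - j) * P.derivative.eval j / P.eval j) = 0 := by
    have h1 : ∑ j ∈ R, inner ℂ (v j) y = (0 : ℂ) := by
      rw [← sum_inner, hsum, hxy]
    have h2 : ∑ j ∈ R, ((‖v j‖ ^ 2 : ℝ) : ℂ) * ((a j - j) * P.derivative.eval j / P.eval j)
        = (ell / lam) * ∑ j ∈ R, inner ℂ (v j) y := by
      rw [Finset.mul_sum]
      apply Finset.sum_congr rfl
      intro j hj
      rw [hae j hj, hder j hj, hrootval j ((hRmem j).mp hj)]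
      ring
    rw [h2, h1, mul_zero]
  have hre : ∑ j ∈ R, ‖v j‖ ^ 2 * ((a j - j) * P.derivative.eval j / P.eval j).re = 0 := by
    have := congrArg Complex.re hzero
    rw [Complex.re_sum, Complex.zero_re] at this
    rw [← this]
    apply Finset.sum_congr rfl
    intro j _
    rw [Complex.re_ofReal_mul]
  have hneg : ∀ j ∈ R, ((a j - j) * P.derivative.eval j / P.eval j).re < 0 := by
    intro j hj
    have hj' := (hRmem j).mp hj
    apply tangent_neg P (s := ‖lam‖) (by rw [hrootval j hj']) hlampos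
    · exact lt_of_le_of_lt (hW _ (haW j hj)) hlamS
    · exact hconv _ hlamS
    · exact hrootder j hj'
  have hnonpos : ∀ j ∈ R, ‖v j‖ ^ 2 * ((a j - j) * P.derivative.eval j / P.eval j).re ≤ 0 := by
    intro j hj
    exact mul_nonpos_of_nonneg_of_nonpos (by positivity) (hneg j hj).le
  have hall := (Finset.sum_eq_zero_iff_of_nonpos hnonpos).mp hre
  have hv0 : ∀ j ∈ R, v j = 0 := by
    intro j hj
    have h1 := hall j hj
    rcases mul_eq_zero.mp h1 with h2 | h2
    · exact norm_eq_zero.mp (pow_eq_zero_iff (two_ne_zero) |>.mp h2)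
    · exact absurd h2 (hneg j hj).ne
  have hx0 : x = 0 := by
    rw [← hsum]
    exact Finset.sum_eq_zero hv0
  rw [hx0, norm_zero] at hx
  exact zero_ne_one hx

end Vale.Agent.P123
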