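import Mathlib

open Polynomial Filter Topology

namespace Vale.Agent.P123

/-- The normalized limit of a polynomial at infinity. -/
lemma tendsto_eval_div_pow (Q : ℂ[X]) (N : ℕ) (hN : Q.natDegree ≤ N) :
    Tendsto (fun ξ : ℂ => Q.eval ξ / ξ ^ N) (Bornology.cobounded ℂ) (𝓝 (Q.coeff N)) := by
  set g : ℂ → ℂ := fun w => ∑ i ∈ Finset.range (N + 1), Q.coeff i * w ^ (N - i) with hg
  have hcont : Continuous g := by
    simp only [hg]
    fun_prop
  have hg0 : g 0 = Q.coeff N := by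
    simp only [hg]
    rw [Finset.sum_range_succ, Nat.sub_self, pow_zero, mul_one, Finset.sum_eq_zero, zero_add]
    intro i hi
    have : N - i ≠ 0 := by
      have := Finset.mem_range.1 hi
      omega
    simp [this]
  have h1 : Tendsto (fun ξ : ℂ => g ξ⁻¹) (Bornology.cobounded ℂ) (𝓝 (Q.coeff N)) := by
    rw [← hg0]
    exact (hcont.tendsto 0).comp tendsto_inv₀_cobounded
  refine h1.congr' ?_
  have hne : ∀ᶠ ξ : ℂ in Bornology.cobounded ℂ, ξ ≠ 0 := by
    have := tendsto_norm_cobounded_atTop (E := ℂ) |>.eventually (eventually_gt_atTop 0)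
    filter_upwards [this] with ξ hξ
    exact norm_pos_iff.1 hξ
  filter_upwards [hne] with ξ hξ
  simp only [hg]
  rw [eval_eq_sum_range' (Nat.lt_succ_of_le hN) ξ, Finset.sum_div]
  refine Finset.sum_congr rfl ?_
  intro i hi
  have hi' : i ≤ N := Nat.lt_succ_iff.1 (Finset.mem_range.1 hi)
  rw [inv_pow, mul_div_assoc]
  congr 1
  have : ξ ^ N = ξ ^ i * ξ ^ (N - i) := by rw [← pow_add]; congr 1; omega
  rw [this]
  field_simp

/-- The expected limit of the normalized Taylor coefficients. -/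
lemma tendsto_normalized_taylor (P : ℂ[X]) (hP : P ≠ 0) (k : ℕ) (hk : k ≤ P.natDegree) :
    Tendsto (fun ξ : ℂ => ξ ^ k * (hasseDeriv k P).eval ξ / P.eval ξ) (Bornology.cobounded ℂ)
      (𝓝 ((P.natDegree.choose k : ℕ) : ℂ)) := by
  set n := P.natDegree with hn
  have hα : P.coeff n ≠ 0 := by
    rw [hn]
    exact leadingCoeff_ne_zero.2 hP
  have h1 := tendsto_eval_div_pow P n le_rfl
  have h2 := tendsto_eval_div_pow (hasseDeriv k P) (n - k) (natDegree_hasseDeriv_le P k)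
  rw [hasseDeriv_coeff, Nat.sub_add_cancel hk] at h2
  have h3 := h2.div h1 hα
  have e : ((n.choose k : ℕ) : ℂ) * P.coeff n / P.coeff n = ((n.choose k : ℕ) : ℂ) := by
    field_simp
  rw [e] at h3
  refine h3.congr' ?_
  have hne : ∀ᶠ ξ : ℂ in Bornology.cobounded ℂ, ξ ≠ 0 := by
    have := tendsto_norm_cobounded_atTop (E := ℂ) |>.eventually (eventually_gt_atTop 0)
    filter_upwards [this] with ξ hξ
    exact norm_pos_iff.1 hξ
  filter_upwards [hne] with ξ hξ
  have e2 : ξ ^ n = ξ ^ (n - k) * ξ ^ k := by rw [← pow_add]; congr 1; omega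
  simp only [Pi.div_apply]
  rw [e2]
  by_cases h0 : P.eval ξ = 0
  · simp [h0]
  · field_simp

/-- Every sufficiently high level of a polynomial of degree at least two has the tangency
property, so its sublevel set is supported by the tangents of its boundary. -/
theorem tangency_large (P : ℂ[X]) (hP : 2 ≤ P.natDegree) :
    ∃ M0 : ℝ, 0 < M0 ∧ ∀ M : ℝ, M0 ≤ M → ∀ ξ a : ℂ, ‖P.eval ξ‖ = M → ‖P.eval a‖ ≤ M →
      0 ≤ (P.derivative.eval ξ * (ξ - a) / P.eval ξ).re := by
  classical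
  set n := P.natDegree with hn
  have hP0 : P ≠ 0 := by
    rintro rfl
    simp at hn
    omega
  have hα : P.coeff n ≠ 0 := by
    rw [hn]
    exact leadingCoeff_ne_zero.2 hP0
  have hαn : 0 < ‖P.coeff n‖ := norm_pos_iff.2 hα
  have hnC : (n : ℂ) ≠ 0 := by
    have : n ≠ 0 := by omega
    exact_mod_cast this
  set e : ℕ → ℂ → ℂ := fun k ξ => ξ ^ k * (hasseDeriv k P).eval ξ / P.eval ξ with he
  set lam : ℂ → ℂ := fun ξ => e 1 ξ / n with hlam
  set d : ℕ → ℂ → ℂ := fun k ξ => e k ξ - ((n.choose k : ℕ) : ℂ) * lam ξ ^ k with hd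
  have hlim : ∀ k ≤ n, Tendsto (e k) (Bornology.cobounded ℂ) (𝓝 ((n.choose k : ℕ) : ℂ)) :=
    fun k hk => tendsto_normalized_taylor P hP0 k hk
  have hlam1 : Tendsto lam (Bornology.cobounded ℂ) (𝓝 1) := by
    have h := (hlim 1 (by omega)).div_const (n : ℂ)
    have e1 : ((n.choose 1 : ℕ) : ℂ) / n = 1 := by
      rw [Nat.choose_one_right]
      exact div_self hnC
    rw [e1] at h
    exact h
  have hdlim : ∀ k ≤ n, Tendsto (d k) (Bornology.cobounded ℂ) (𝓝 0) := by
    intro k hk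
    have h := (hlim k hk).sub ((hlam1.pow k).const_mul ((n.choose k : ℕ) : ℂ))
    simp only [one_pow, mul_one, sub_self] at h
    exact h
  set ε0 : ℝ := 1 / (4 * ((n : ℝ) + 1) * 4 ^ n) with hε0
  have hε0pos : 0 < ε0 := by positivity
  have ev1 : ∀ᶠ ξ in Bornology.cobounded ℂ, ‖lam ξ - 1‖ < 1 / 2 := by
    have := Metric.tendsto_nhds.1 hlam1 (1 / 2) (by norm_num)
    simpa [dist_eq_norm] using this
  have ev2 : ∀ᶠ ξ in Bornology.cobounded ℂ, ∀ k ∈ Finset.range (n + 1), ‖d k ξ‖ < ε0 := by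
    rw [Filter.eventually_all_finset]
    intro k hk
    have := Metric.tendsto_nhds.1 (hdlim k (Nat.lt_succ_iff.1 (Finset.mem_range.1 hk))) ε0 hε0pos
    simpa [dist_eq_norm] using this
  have hPlim := tendsto_eval_div_pow P n le_rfl
  have ev3 : ∀ᶠ ξ in Bornology.cobounded ℂ, ‖P.eval ξ / ξ ^ n - P.coeff n‖ < ‖P.coeff n‖ / 2 := by
    have := Metric.tendsto_nhds.1 hPlim (‖P.coeff n‖ / 2) (by positivity)
    simpa [dist_eq_norm] using this
  have ev4 : ∀ᶠ ξ : ℂ in Bornology.cobounded ℂ, ξ ≠ 0 := by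
    have := tendsto_norm_cobounded_atTop (E := ℂ) |>.eventually (eventually_gt_atTop 0)
    filter_upwards [this] with ξ hξ
    exact norm_pos_iff.1 hξ
  have evall := (ev1.and (ev2.and (ev3.and ev4)))
  obtain ⟨R, -, hR⟩ := (Metric.hasBasis_cobounded_compl_closedBall (0 : ℂ)).eventually_iff.1 evall
  obtain ⟨Cb, hCb⟩ := (isCompact_closedBall (0 : ℂ) R).exists_bound_of_continuousOn
    P.continuous.continuousOn
  refine ⟨max Cb 0 + 1, by positivity, ?_⟩
  intro M hM ξ a hξ ha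
  have hMpos : 0 < M := by
    have : 0 ≤ max Cb 0 := le_max_right _ _
    linarith
  -- xi is large
  have hξR : R < ‖ξ‖ := by
    by_contra h
    push Not at h
    have h1 := hCb ξ (by simpa [Metric.mem_closedBall, dist_zero_right] using h)
    have h2 : Cb ≤ max Cb 0 := le_max_left _ _
    linarith
  obtain ⟨hl, hdd, hp3, hξ0⟩ := hR (by simpa [Metric.mem_closedBall, dist_zero_right] using hξR)
  have hξn : 0 < ‖ξ‖ := norm_pos_iff.2 hξ0
  have hPξ0 : P.eval ξ ≠ 0 := by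
    intro h
    rw [h, norm_zero] at hξ
    linarith
  -- a is not too far
  have hp3' : ‖P.eval ξ‖ ≤ 2 * ‖P.coeff n‖ * ‖ξ‖ ^ n := by
    have h1 : ‖P.eval ξ / ξ ^ n‖ ≤ ‖P.coeff n‖ + ‖P.coeff n‖ / 2 := by
      have := norm_sub_norm_le (P.eval ξ / ξ ^ n) (P.coeff n)
      linarith
    rw [norm_div, norm_pow, div_le_iff₀ (by positivity)] at h1
    nlinarith [pow_pos hξn n]
  have han : ‖a‖ < 3 * ‖ξ‖ := by
    by_contra h
    push Not at h
    have haR : R < ‖a‖ := by linarith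
    obtain ⟨-, -, hpa, ha0⟩ := hR (by simpa [Metric.mem_closedBall, dist_zero_right] using haR)
    have han0 : 0 < ‖a‖ := norm_pos_iff.2 ha0
    have h1 : ‖P.coeff n‖ / 2 ≤ ‖P.eval a‖ / ‖a‖ ^ n := by
      have := norm_sub_norm_le (P.coeff n) (P.eval a / a ^ n)
      rw [norm_sub_rev] at this
      rw [norm_div, norm_pow] at this
      linarith
    rw [le_div_iff₀ (by positivity)] at h1
    have h2 : (3 * ‖ξ‖) ^ n ≤ ‖a‖ ^ n := by gcongr
    have h3 : (9 : ℝ) ≤ 3 ^ n := by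
      calc (9 : ℝ) = 3 ^ 2 := by norm_num
        _ ≤ 3 ^ n := pow_le_pow_right₀ (by norm_num) hP
    rw [mul_pow] at h2
    have hpn := pow_pos hξn n
    have h4 : 9 * ‖ξ‖ ^ n ≤ ‖a‖ ^ n := by nlinarith
    have h5 : ‖P.coeff n‖ / 2 * (9 * ‖ξ‖ ^ n) ≤ ‖P.coeff n‖ / 2 * ‖a‖ ^ n := by gcongr
    have h6 : 0 < ‖P.coeff n‖ * ‖ξ‖ ^ n := by positivity
    nlinarith
  set t : ℂ := (a - ξ) / ξ with ht
  have htn : ‖t‖ ≤ 4 := by
    rw [ht, norm_div, div_le_iff₀ hξn]
    have := norm_sub_le a ξ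
    linarith
  -- the Taylor expansion
  have htaylor : P.eval a / P.eval ξ = ∑ k ∈ Finset.range (n + 1), e k ξ * t ^ k := by
    have h1 : P.eval a = (taylor ξ P).eval (a - ξ) := by
      rw [taylor_eval, sub_add_cancel]
    rw [h1, eval_eq_sum_range' (by rw [natDegree_taylor]; exact Nat.lt_succ_self _), Finset.sum_div]
    refine Finset.sum_congr rfl ?_
    intro k _
    rw [taylor_coeff]
    simp only [he, ht]
    rw [div_pow]
    field_simp
  have hbinom : (t * lam ξ + 1) ^ n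
      = ∑ k ∈ Finset.range (n + 1), ((n.choose k : ℕ) : ℂ) * lam ξ ^ k * t ^ k := by
    rw [add_pow]
    refine Finset.sum_congr rfl ?_
    intro k _
    rw [one_pow, mul_one, mul_pow]
    ring
  have hdiff : P.eval a / P.eval ξ = (t * lam ξ + 1) ^ n
      + ∑ k ∈ Finset.range (n + 1), d k ξ * t ^ k := by
    rw [htaylor, hbinom, ← Finset.sum_add_distrib]
    refine Finset.sum_congr rfl ?_
    intro k _
    simp only [hd]
    ring
  -- the first two differences vanish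
  have hd0 : d 0 ξ = 0 := by
    simp only [hd, he, hlam]
    simp [hPξ0]
  have hd1 : d 1 ξ = 0 := by
    simp only [hd, hlam]
    rw [Nat.choose_one_right]
    field_simp
    ring
  have hsmall : ‖∑ k ∈ Finset.range (n + 1), d k ξ * t ^ k‖ ≤ ‖t‖ ^ 2 / 4 := by
    have hterm : ∀ k ∈ Finset.range (n + 1), ‖d k ξ * t ^ k‖ ≤ ε0 * 4 ^ n * ‖t‖ ^ 2 := by
      intro k hk
      have hk' : k ≤ n := Nat.lt_succ_iff.1 (Finset.mem_range.1 hk)
      rcases Nat.lt_or_ge k 2 with h2 | h2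
      · have : d k ξ = 0 := by
          interval_cases k
          · exact hd0
          · exact hd1
        rw [this, zero_mul, norm_zero]
        positivity
      · rw [norm_mul, norm_pow]
        have h3 : ‖t‖ ^ k = ‖t‖ ^ 2 * ‖t‖ ^ (k - 2) := by
          rw [← pow_add]; congr 1; omega
        have h4 : ‖t‖ ^ (k - 2) ≤ 4 ^ n := by
          calc ‖t‖ ^ (k - 2) ≤ 4 ^ (k - 2) := by gcongr
            _ ≤ 4 ^ n := pow_le_pow_right₀ (by norm_num) (by omega)
        have h5 := (hdd k hk).le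
        rw [h3]
        calc ‖d k ξ‖ * (‖t‖ ^ 2 * ‖t‖ ^ (k - 2)) ≤ ε0 * (‖t‖ ^ 2 * 4 ^ n) := by gcongr
          _ = _ := by ring
    calc _ ≤ ∑ k ∈ Finset.range (n + 1), ‖d k ξ * t ^ k‖ := norm_sum_le _ _
      _ ≤ ∑ _k ∈ Finset.range (n + 1), ε0 * 4 ^ n * ‖t‖ ^ 2 := Finset.sum_le_sum hterm
      _ = ((n : ℝ) + 1) * (ε0 * 4 ^ n * ‖t‖ ^ 2) := by
          rw [Finset.sum_const, Finset.card_range, nsmul_eq_mul]
          push_cast
          ring
      _ = ‖t‖ ^ 2 / 4 := by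
          rw [hε0]
          field_simp
  -- the tangency quantity
  have htan : P.derivative.eval ξ * (ξ - a) / P.eval ξ = -((n : ℂ) * (t * lam ξ)) := by
    have h1 : e 1 ξ = ξ * P.derivative.eval ξ / P.eval ξ := by
      simp only [he, hasseDeriv_one', pow_one]
    have h2 : (n : ℂ) * (t * lam ξ) = t * e 1 ξ := by
      simp only [hlam]
      field_simp
    rw [h2, h1, ht]
    field_simp
    ring
  rw [htan, Complex.neg_re]
  by_contra hneg
  push Not at hneg
  set y : ℂ := t * lam ξ with hy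
  have hyre : 0 < y.re := by
    have h1 : ((n : ℂ) * y).re = n * y.re := by simp
    rw [h1] at hneg
    have hnpos : (0 : ℝ) < n := by
      have : 0 < n := by omega
      exact_mod_cast this
    have h2 : 0 < (n : ℝ) * y.re := by linarith
    exact (pos_iff_pos_of_mul_pos h2).1 hnpos
  have h1y : ‖y + 1‖ ^ 2 = 1 + 2 * y.re + ‖y‖ ^ 2 := by
    rw [Complex.sq_norm, Complex.sq_norm, Complex.normSq_apply, Complex.normSq_apply]
    simp
    ring
  have hge1 : 1 ≤ ‖y + 1‖ := by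
    by_contra h
    push Not at h
    have h2 : ‖y + 1‖ ^ 2 < 1 := by
      have := norm_nonneg (y + 1)
      nlinarith
    nlinarith [sq_nonneg ‖y‖]
  have hpowge : ‖y + 1‖ ^ 2 ≤ ‖(y + 1) ^ n‖ := by
    rw [norm_pow]
    exact pow_le_pow_right₀ hge1 hP
  have hlamn : 1 / 2 ≤ ‖lam ξ‖ := by
    have := norm_sub_norm_le (1 : ℂ) (lam ξ)
    rw [norm_sub_rev, norm_one] at this
    linarith
  have hyn : ‖t‖ / 2 ≤ ‖y‖ := by
    rw [hy, norm_mul]
    have := norm_nonneg t
    nlinarith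
  have hysq : ‖t‖ ^ 2 / 4 ≤ ‖y‖ ^ 2 := by
    have := norm_nonneg t
    have h2 : (‖t‖ / 2) ^ 2 ≤ ‖y‖ ^ 2 := by gcongr
    nlinarith
  have hfinal : 1 + 2 * y.re ≤ ‖P.eval a / P.eval ξ‖ := by
    rw [hdiff]
    have := norm_sub_norm_le ((y + 1) ^ n) (-(∑ k ∈ Finset.range (n + 1), d k ξ * t ^ k))
    rw [sub_neg_eq_add, norm_neg] at this
    linarith
  have hle1 : ‖P.eval a / P.eval ξ‖ ≤ 1 := by
    rw [norm_div, hξ, div_le_one hMpos]
    exact ha
  linarith

end Vale.Agent.P123
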