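import Vale.Agent.P123.Core

namespace Vale.Agent.P123

open ComplexConjugate

variable {H : Type*} [NormedAddCommGroup H] [InnerProductSpace ℂ H]

lemma inner_self_c (u : H) : inner ℂ u u = ((‖u‖ ^ 2 : ℝ) : ℂ) := by
  rw [inner_self_eq_norm_sq_to_K]
  simp

/-- The value of the quadratic form on an arbitrary nonzero vector. -/
lemma rayleigh (A : H →L[ℂ] H) {u : H} (hu : u ≠ 0) :
    ∃ a ∈ numRange A, inner ℂ u (A u) = ((‖u‖ ^ 2 : ℝ) : ℂ) * a := by
  have hn : ‖u‖ ≠ 0 := norm_ne_zero_iff.mpr hu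
  set ξ : H := ((‖u‖⁻¹ : ℝ) : ℂ) • u with hξ
  have hξ1 : ‖ξ‖ = 1 := by
    rw [hξ, norm_smul, Complex.norm_real, norm_inv, norm_norm]
    field_simp
  refine ⟨inner ℂ ξ (A ξ), ⟨ξ, hξ1, rfl⟩, ?_⟩
  rw [hξ, map_smul, inner_smul_left, inner_smul_right, Complex.conj_ofReal]
  push_cast
  have hn' : (‖u‖ : ℂ) ≠ 0 := by exact_mod_cast hn
  field_simp

lemma rayleigh' (A : H →L[ℂ] H) (hne : (numRange A).Nonempty) (u : H) :
    ∃ a ∈ numRange A, inner ℂ u (A u) = ((‖u‖ ^ 2 : ℝ) : ℂ) * a := by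
  by_cases hu : u = 0
  · obtain ⟨a, ha⟩ := hne
    exact ⟨a, ha, by simp [hu]⟩
  · exact rayleigh A hu

/-- The basic identity, which needs no inverse: a square root of a point of the numerical range of
`B²` lies on a segment from a point of the numerical range of `B` to the opposite of another one. -/
lemma sqrt_hull (B : H →L[ℂ] H) {x : H} (hx : ‖x‖ = 1) {r : ℂ}
    (hr : r ^ 2 = inner ℂ x (B (B x))) :
    ∃ a₁ ∈ numRange B, ∃ a₂ ∈ numRange B, ∃ t : ℝ, 0 ≤ t ∧ t ≤ 1 ∧
      r = (t : ℂ) * a₁ + ((1 - t : ℝ) : ℂ) * (-a₂) := by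
  have hne : (numRange B).Nonempty := ⟨_, x, hx, rfl⟩
  by_cases hr0 : r = 0
  · obtain ⟨a, ha⟩ := hne
    refine ⟨a, ha, a, ha, 1 / 2, by norm_num, by norm_num, ?_⟩
    rw [hr0]; push_cast; ring
  set u : H := r • x - B x with hu
  set v : H := r • x + B x with hv
  set y : H := r ^ 2 • x - B (B x) with hy
  have h1 : y = r • u + B u := by
    rw [hy, hu, map_sub, map_smul, smul_sub, smul_smul, sq]
    abel
  have h2 : y = r • v - B v := by
    rw [hy, hv, map_add, map_smul, smul_add, smul_smul, sq]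
    abel
  have h3 : u + v = (2 * r) • x := by
    rw [hu, hv, two_mul, add_smul]
    abel
  have hxx : inner ℂ x x = (1 : ℂ) := by
    rw [inner_self_c, hx]; simp
  have h4 : inner ℂ x y = (0 : ℂ) := by
    rw [hy, inner_sub_right, inner_smul_right, hxx, mul_one, hr, sub_self]
  have h5 : inner ℂ (u + v) y = (0 : ℂ) := by
    rw [h3, inner_smul_left, h4, mul_zero]
  have h6 : inner ℂ u y = r * ((‖u‖ ^ 2 : ℝ) : ℂ) + inner ℂ u (B u) := by
    rw [h1, inner_add_right, inner_smul_right, inner_self_c]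
  have h7 : inner ℂ v y = r * ((‖v‖ ^ 2 : ℝ) : ℂ) - inner ℂ v (B v) := by
    rw [h2, inner_sub_right, inner_smul_right, inner_self_c]
  rw [inner_add_left, h6, h7] at h5
  obtain ⟨a₂, ha₂, e₂⟩ := rayleigh' B hne u
  obtain ⟨a₁, ha₁, e₁⟩ := rayleigh' B hne v
  rw [e₂, e₁] at h5
  set p : ℝ := ‖u‖ ^ 2 with hp
  set q : ℝ := ‖v‖ ^ 2 with hq
  have hp0 : 0 ≤ p := by positivity
  have hq0 : 0 ≤ q := by positivity
  have hpq : 0 < p + q := by
    by_contra hcon
    have hp1 : p = 0 := by linarith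
    have hq1 : q = 0 := by linarith
    have hu0 : u = 0 := by
      have : ‖u‖ = 0 := by
        have := pow_eq_zero_iff (two_ne_zero) |>.mp (hp ▸ hp1)
        exact this
      exact norm_eq_zero.mp this
    have hv0 : v = 0 := by
      have : ‖v‖ = 0 := by
        have := pow_eq_zero_iff (two_ne_zero) |>.mp (hq ▸ hq1)
        exact this
      exact norm_eq_zero.mp this
    rw [hu0, hv0, add_zero] at h3
    have h8 : (2 * r) • x = 0 := h3.symm
    rcases smul_eq_zero.mp h8 with h9 | h9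
    · apply hr0
      simpa using h9
    · rw [h9, norm_zero] at hx
      exact zero_ne_one hx
  have hpqc : ((p + q : ℝ) : ℂ) ≠ 0 := by exact_mod_cast hpq.ne'
  refine ⟨a₁, ha₁, a₂, ha₂, q / (p + q), by positivity, ?_, ?_⟩
  · rw [div_le_one hpq]; linarith
  · have e : 1 - q / (p + q) = p / (p + q) := by field_simp; ring
    rw [e]
    push_cast
    push_cast at hpqc
    field_simp
    linear_combination h5

/-- Points of the numerical range of a translate. -/
lemma numRange_translate (A : H →L[ℂ] H) (b : ℂ) {a : ℂ}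
    (ha : a ∈ numRange (A + b • (1 : H →L[ℂ] H))) : a - b ∈ numRange A := by
  obtain ⟨x, hx, rfl⟩ := ha
  refine ⟨x, hx, ?_⟩
  have hxx : inner ℂ x x = (1 : ℂ) := by
    rw [inner_self_c, hx]; simp
  have e : (A + b • (1 : H →L[ℂ] H)) x = A x + b • x := by simp
  rw [e, inner_add_right, inner_smul_right, hxx]
  ring

/-- Every point of the numerical range of `P(A)` is a value of `P` on the symmetrised hull. -/
lemma exists_hull_value (A : H →L[ℂ] H) {α : ℂ} (β γ : ℂ) (hα : α ≠ 0) {x : H} (hx : ‖x‖ = 1) :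
    ∃ ζ ∈ symHull α β A, α * ζ ^ 2 + β * ζ + γ = inner ℂ x (quadOp α β γ A x) := by
  set b : ℂ := β / (2 * α) with hb
  set B : H →L[ℂ] H := A + b • (1 : H →L[ℂ] H) with hB
  obtain ⟨r, hr⟩ := IsAlgClosed.exists_pow_nat_eq (inner ℂ x (B (B x)) : ℂ) (n := 2) (by norm_num)
  obtain ⟨a₁, ha₁, a₂, ha₂, t, ht0, ht1, hrt⟩ := sqrt_hull B hx hr
  have ha₁' := numRange_translate A b ha₁
  have ha₂' := numRange_translate A b ha₂
  have hxx : inner ℂ x x = (1 : ℂ) := by
    rw [inner_self_c, hx]; simp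
  have hq : inner ℂ x (quadOp α β γ A x)
      = α * r ^ 2 + (γ - α * b ^ 2) := by
    rw [hr]
    have h1 : B (B x) = A (A x) + (2 * b) • A x + b ^ 2 • x := by
      simp only [hB, ContinuousLinearMap.add_apply, ContinuousLinearMap.smul_apply,
        ContinuousLinearMap.one_apply, map_add, map_smul, smul_add, smul_smul]
      rw [two_mul, add_smul, sq]
      abel
    rw [h1]
    simp only [quadOp, ContinuousLinearMap.add_apply, ContinuousLinearMap.smul_apply,
      ContinuousLinearMap.mul_apply, ContinuousLinearMap.one_apply, inner_add_right,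
      inner_smul_right, hxx]
    have h2 : β = 2 * α * b := by rw [hb]; field_simp
    rw [h2]
    ring
  refine ⟨r - b, ?_, ?_⟩
  · -- the point lies on the segment between a₁ - b and the reflection of a₂ - b
    have hm1 : a₁ - b ∈ symHull α β A :=
      subset_convexHull ℝ _ (Set.mem_union_left _ ha₁')
    have hm2 : -β / α - (a₂ - b) ∈ symHull α β A :=
      subset_convexHull ℝ _ (Set.mem_union_right _ ⟨a₂ - b, ha₂', rfl⟩)
    have hconv := (convex_convexHull ℝ _) hm1 hm2 ht0 (by linarith : 0 ≤ 1 - t) (by ring)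
    have e : r - b = t • (a₁ - b) + (1 - t) • (-β / α - (a₂ - b)) := by
      rw [hrt, Complex.real_smul, Complex.real_smul]
      have h2 : -β / α = -(2 * b) := by rw [hb]; field_simp
      rw [h2]
      push_cast
      ring
    rw [e]
    exact hconv
  · rw [hq]
    have h2 : β = 2 * α * b := by rw [hb]; field_simp
    rw [h2]
    ring

/-- The bound for the numerical radius over the symmetrised hull. -/
lemma numRadius_le_of_hull (A : H →L[ℂ] H) {α : ℂ} (β γ : ℂ) (hα : α ≠ 0) {S : ℝ}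
    (hS : ∀ z ∈ symHull α β A, ‖α * z ^ 2 + β * z + γ‖ ≤ S) :
    ∀ z ∈ numRange (quadOp α β γ A), ‖z‖ ≤ S := by
  rintro z ⟨x, hx, rfl⟩
  obtain ⟨ζ, hζ, e⟩ := exists_hull_value A β γ hα hx
  rw [← e]
  exact hS ζ hζ

/-- Norm versus numerical radius. -/
lemma norm_le_two_mul (T : H →L[ℂ] H) {S : ℝ} (hS0 : 0 ≤ S)
    (hS : ∀ z ∈ numRange T, ‖z‖ ≤ S) : ‖T‖ ≤ 2 * S := by
  have hform : ∀ u : H, ‖inner ℂ (T u) u‖ ≤ S * ‖u‖ ^ 2 := by
    intro u
    by_cases hu : u = 0
    · simp [hu]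
    · obtain ⟨a, ha, e⟩ := rayleigh T hu
      have h1 : ‖inner ℂ (T u) u‖ = ‖inner ℂ u (T u)‖ := norm_inner_symm _ _
      rw [h1, e, norm_mul, Complex.norm_real, Real.norm_of_nonneg (by positivity)]
      have := hS a ha
      nlinarith [sq_nonneg ‖u‖]
  have hpol : ∀ x y : H, ‖inner ℂ (T y) x‖ ≤ S * (‖x‖ ^ 2 + ‖y‖ ^ 2) := by
    intro x y
    have h := inner_map_polarization (T : H →ₗ[ℂ] H) x y
    simp only [ContinuousLinearMap.coe_coe] at h
    rw [h, norm_div]
    have e4 : ‖(4 : ℂ)‖ = 4 := by simp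
    rw [e4, div_le_iff₀ (by norm_num)]
    have a1 := hform (x + y)
    have a2 := hform (x - y)
    have a3 := hform (x + Complex.I • y)
    have a4 := hform (x - Complex.I • y)
    have p1 := parallelogram_law_with_norm ℂ x y
    have p2 := parallelogram_law_with_norm ℂ x (Complex.I • y)
    have hI : ‖Complex.I • y‖ = ‖y‖ := by rw [norm_smul, Complex.norm_I, one_mul]
    rw [hI] at p2
    calc _ ≤ ‖inner ℂ (T (x + y)) (x + y)‖ + ‖inner ℂ (T (x - y)) (x - y)‖
          + ‖Complex.I * inner ℂ (T (x + Complex.I • y)) (x + Complex.I • y)‖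
          + ‖Complex.I * inner ℂ (T (x - Complex.I • y)) (x - Complex.I • y)‖ := by
            refine (norm_sub_le _ _).trans ?_
            refine add_le_add_left ?_ _
            refine (norm_add_le _ _).trans ?_
            refine add_le_add_left ?_ _
            exact norm_sub_le _ _
      _ ≤ S * ‖x + y‖ ^ 2 + S * ‖x - y‖ ^ 2 + S * ‖x + Complex.I • y‖ ^ 2
          + S * ‖x - Complex.I • y‖ ^ 2 := by
            simp only [norm_mul, Complex.norm_I, one_mul]
            linarith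
      _ = S * (‖x‖ ^ 2 + ‖y‖ ^ 2) * 4 := by
            nlinarith
  apply ContinuousLinearMap.opNorm_le_bound _ (by positivity)
  intro y
  by_cases hy : y = 0
  · simp [hy]
  by_cases hTy : T y = 0
  · rw [hTy, norm_zero]; positivity
  have hyn : 0 < ‖y‖ := norm_pos_iff.mpr hy
  have hTn : 0 < ‖T y‖ := norm_pos_iff.mpr hTy
  set x : H := ((‖y‖ / ‖T y‖ : ℝ) : ℂ) • T y with hx
  have hxn : ‖x‖ = ‖y‖ := by
    rw [hx, norm_smul, Complex.norm_real, Real.norm_of_nonneg (by positivity)]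
    field_simp
  have h1 := hpol x y
  rw [hxn] at h1
  have h2 : inner ℂ (T y) x = ((‖y‖ * ‖T y‖ : ℝ) : ℂ) := by
    rw [hx, inner_smul_right, inner_self_c]
    push_cast
    have : (‖T y‖ : ℂ) ≠ 0 := by exact_mod_cast hTn.ne'
    field_simp
  rw [h2, Complex.norm_real, Real.norm_of_nonneg (by positivity)] at h1
  have h3 : ‖y‖ * ‖T y‖ ≤ ‖y‖ * (2 * S * ‖y‖) := by nlinarith
  exact le_of_mul_le_mul_left h3 hyn

/-- The reflection about the critical point leaves the quadratic invariant. -/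
lemma quad_reflect {α : ℂ} (β γ z : ℂ) (hα : α ≠ 0) :
    α * (-β / α - z) ^ 2 + β * (-β / α - z) + γ = α * z ^ 2 + β * z + γ := by
  field_simp
  ring

/-- Sublevel sets of a quadratic at levels above half the discriminant over the leading coefficient
are convex. -/
lemma quad_level_convex {α : ℂ} (β γ : ℂ) (hα : α ≠ 0) {S : ℝ}
    (hdisc : ‖β ^ 2 - 4 * α * γ‖ ≤ 2 * ‖α‖ * S) :
    Convex ℝ {z : ℂ | ‖α * z ^ 2 + β * z + γ‖ ≤ S} := by
  set b : ℂ := β / (2 * α) with hb
  set c : ℂ := (β ^ 2 - 4 * α * γ) / (4 * α ^ 2) with hc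
  have hαn : 0 < ‖α‖ := norm_pos_iff.mpr hα
  have hform : ∀ z : ℂ, α * z ^ 2 + β * z + γ = α * ((z + b) ^ 2 - c) := by
    intro z
    rw [hb, hc]
    field_simp
    ring
  have hcS : 2 * ‖c‖ ≤ S / ‖α‖ := by
    rw [hc, norm_div, norm_mul, norm_pow]
    have e4 : ‖(4 : ℂ)‖ = 4 := by simp
    rw [e4, le_div_iff₀ hαn]
    have h2 : 2 * (‖β ^ 2 - 4 * α * γ‖ / (4 * ‖α‖ ^ 2)) * ‖α‖
        = ‖β ^ 2 - 4 * α * γ‖ / (2 * ‖α‖) := by
      field_simp
      ring
    rw [h2, div_le_iff₀ (by positivity)]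
    linarith
  have hmem : ∀ z : ℂ, ‖α * z ^ 2 + β * z + γ‖ ≤ S ↔ ‖(z + b) ^ 2 - c‖ ≤ S / ‖α‖ := by
    intro z
    rw [hform, norm_mul, le_div_iff₀ hαn, mul_comm]
  intro z hz w hw s t hs ht hst
  simp only [Set.mem_setOf_eq] at hz hw ⊢
  rw [hmem] at hz hw ⊢
  have ht' : t = 1 - s := by linarith
  have := level_convex hcS hz hw hs (by linarith : s ≤ 1)
  convert this using 3
  rw [ht', Complex.real_smul, Complex.real_smul]
  push_cast
  ring

end Vale.Agent.P123
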