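import Mathlib

open Polynomial

namespace Vale.Agent.P123

/-- Partition of unity attached to a polynomial with simple roots. -/
lemma partition_of_simple (Q : ℂ[X]) (hQ : 0 < Q.natDegree)
    (hsimple : ∀ ξ, Q.IsRoot ξ → Q.derivative.eval ξ ≠ 0) :
    ∃ (s : Finset ℂ) (L : ℂ → ℂ[X]), (∀ ξ, ξ ∈ s ↔ Q.IsRoot ξ) ∧ (∑ ξ ∈ s, L ξ = 1) ∧
      ∀ ξ ∈ s, Q = C (Q.derivative.eval ξ) * ((X - C ξ) * L ξ) := by
  classical
  have hQ0 : Q ≠ 0 := by
    rintro rfl
    simp at hQ
  have hnodup : Q.roots.Nodup := by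
    rw [Multiset.nodup_iff_count_le_one]
    intro a
    rw [count_roots]
    by_contra h
    have h' : 1 < rootMultiplicity a Q := by omega
    have := (one_lt_rootMultiplicity_iff_isRoot hQ0).1 h'
    exact hsimple a this.1 this.2
  have hcard : Q.roots.toFinset.card = Q.natDegree := by
    rw [Multiset.toFinset_card_of_nodup hnodup, IsAlgClosed.card_roots_eq_natDegree]
  refine ⟨Q.roots.toFinset, fun ξ => C ((Q /ₘ (X - C ξ)).eval ξ)⁻¹ * (Q /ₘ (X - C ξ)), ?_, ?_, ?_⟩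
  · intro ξ
    simp [hQ0]
  · -- the sum is one by interpolation
    have hmem : ∀ ξ ∈ Q.roots.toFinset, Q.IsRoot ξ := by
      intro ξ hξ
      simpa [hQ0] using hξ
    have hmul : ∀ ξ ∈ Q.roots.toFinset, (X - C ξ) * (Q /ₘ (X - C ξ)) = Q := by
      intro ξ hξ
      exact mul_divByMonic_eq_iff_isRoot.2 (hmem ξ hξ)
    have hder : ∀ ξ ∈ Q.roots.toFinset, (Q /ₘ (X - C ξ)).eval ξ = Q.derivative.eval ξ := by
      intro ξ hξ
      conv_rhs => rw [← hmul ξ hξ]
      simp [derivative_mul]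
    have hne : ∀ ξ ∈ Q.roots.toFinset, (Q /ₘ (X - C ξ)).eval ξ ≠ 0 := by
      intro ξ hξ
      rw [hder ξ hξ]
      exact hsimple ξ (hmem ξ hξ)
    have hzero : ∀ ξ ∈ Q.roots.toFinset, ∀ j ∈ Q.roots.toFinset, j ≠ ξ →
        (Q /ₘ (X - C ξ)).eval j = 0 := by
      intro ξ hξ j hj hne'
      have h1 : Q.eval j = 0 := hmem j hj
      rw [← hmul ξ hξ] at h1
      simp only [eval_mul, eval_sub, eval_X, eval_C] at h1
      rcases mul_eq_zero.1 h1 with h | h
      · exact absurd (sub_eq_zero.1 h) hne'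
      · exact h
    have hdeg : ((∑ ξ ∈ Q.roots.toFinset, C ((Q /ₘ (X - C ξ)).eval ξ)⁻¹ * (Q /ₘ (X - C ξ))) - 1).degree
        < (Q.roots.toFinset.card : WithBot ℕ) := by
      rw [hcard]
      refine lt_of_le_of_lt (degree_sub_le _ _) ?_
      refine max_lt ?_ ?_
      · refine lt_of_le_of_lt (degree_sum_le _ _) ?_
        rw [Finset.sup_lt_iff (by exact WithBot.bot_lt_coe _)]
        intro ξ _
        have h1 : ∀ (a : ℂ) (p : ℂ[X]), degree (C a * p) ≤ degree p := by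
          intro a p
          refine (degree_mul_le (C a) p).trans ?_
          calc degree (C a) + degree p ≤ 0 + degree p := by
                gcongr
                exact degree_C_le
            _ = degree p := zero_add _
        refine lt_of_le_of_lt (h1 _ _) ?_
        rw [← degree_eq_natDegree hQ0]
        exact degree_divByMonic_lt _ (X - C ξ) hQ0 (by rw [degree_X_sub_C]; exact one_pos)
      · rw [degree_one]
        exact_mod_cast hQ
    have := eq_of_degree_sub_lt_of_eval_finset_eq Q.roots.toFinset hdeg ?_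
    · exact this
    · intro j hj
      rw [eval_finsetSum, Finset.sum_eq_single j]
      · simp [hne j hj]
      · intro ξ hξ hξj
        simp [hzero ξ hξ j hj (Ne.symm hξj)]
      · intro h
        exact absurd hj h
  · intro ξ hξ
    have hroot : Q.IsRoot ξ := by simpa [hQ0] using hξ
    have h1 : (X - C ξ) * (Q /ₘ (X - C ξ)) = Q := mul_divByMonic_eq_iff_isRoot.2 hroot
    have h2 : (Q /ₘ (X - C ξ)).eval ξ = Q.derivative.eval ξ := by
      conv_rhs => rw [← h1]
      simp [derivative_mul]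
    have h3 : (Q /ₘ (X - C ξ)).eval ξ ≠ 0 := by
      rw [h2]; exact hsimple ξ hroot
    calc Q = C 1 * ((X - C ξ) * (Q /ₘ (X - C ξ))) := by rw [h1]; simp
      _ = _ := by
        rw [← h2, ← mul_inv_cancel₀ h3, C_mul]
        ring

variable {H : Type*} [NormedAddCommGroup H] [InnerProductSpace ℂ H]

/-- The polygon lemma, an abstract form of Pearcy's proof of the power inequality. -/
theorem polygon (A : H →L[ℂ] H) (P : ℂ[X]) (hP : 0 < P.natDegree) (τ β : ℂ)
    (hsimple : ∀ ξ, P.eval ξ = τ → P.derivative.eval ξ ≠ 0)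
    (hW : ∀ ξ, P.eval ξ = τ → ∀ x : H, ‖x‖ = 1 →
      0 ≤ (β * P.derivative.eval ξ * (ξ - inner ℂ x (A x))).re)
    (y : H) :
    0 ≤ (β * (τ * (‖y‖ : ℂ) ^ 2 - inner ℂ y (aeval A P y))).re := by
  classical
  set Q : ℂ[X] := P - C τ with hQdef
  have hQdeg : Q.natDegree = P.natDegree := natDegree_sub_C
  have hQder : Q.derivative = P.derivative := by simp [hQdef]
  have hroot : ∀ ξ, Q.IsRoot ξ ↔ P.eval ξ = τ := by
    intro ξ
    simp [hQdef, IsRoot, sub_eq_zero]
  obtain ⟨s, L, hs, hsum, hfac⟩ := partition_of_simple Q (by omega)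
    (by
      intro ξ hξ
      rw [hQder]
      exact hsimple ξ ((hroot ξ).1 hξ))
  -- the pieces of y
  set yy : ℂ → H := fun ξ => aeval A (L ξ) y with hyy
  have hy : ∑ ξ ∈ s, yy ξ = y := by
    have h1 : aeval A (∑ ξ ∈ s, L ξ) y = y := by
      rw [hsum]; simp
    rw [map_sum, _root_.sum_apply] at h1
    exact h1
  have hQapp : ∀ ξ ∈ s, aeval A Q y = P.derivative.eval ξ • (A (yy ξ) - ξ • yy ξ) := by
    intro ξ hξ
    conv_lhs => rw [hfac ξ hξ]
    rw [hQder]
    simp [hyy, map_mul, aeval_C, Algebra.algebraMap_eq_smul_one, map_sub]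
  have hlhs : (τ * (‖y‖ : ℂ) ^ 2 - inner ℂ y (aeval A P y))
      = ∑ ξ ∈ s, P.derivative.eval ξ * ((‖yy ξ‖ : ℂ) ^ 2 * ξ - inner ℂ (yy ξ) (A (yy ξ))) := by
    have h0 : inner ℂ y (aeval A Q y) = inner ℂ y (aeval A P y) - τ * (‖y‖ : ℂ) ^ 2 := by
      simp [hQdef, map_sub, aeval_C, Algebra.algebraMap_eq_smul_one, inner_self_eq_norm_sq_to_K]
    have h1 : inner ℂ y (aeval A Q y) = ∑ ξ ∈ s, inner ℂ (yy ξ) (aeval A Q y) := by
      have h11 : inner ℂ (∑ ξ ∈ s, yy ξ) (aeval A Q y) = ∑ ξ ∈ s, inner ℂ (yy ξ) (aeval A Q y) :=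
        sum_inner _ _ _
      rw [hy] at h11
      exact h11
    have h2 : ∀ ξ ∈ s, inner ℂ (yy ξ) (aeval A Q y)
        = - (P.derivative.eval ξ * ((‖yy ξ‖ : ℂ) ^ 2 * ξ - inner ℂ (yy ξ) (A (yy ξ)))) := by
      intro ξ hξ
      rw [hQapp ξ hξ, inner_smul_right, inner_sub_right, inner_smul_right,
        inner_self_eq_norm_sq_to_K]
      simp only [Complex.coe_algebraMap]
      ring
    rw [h1, Finset.sum_congr rfl h2, Finset.sum_neg_distrib] at h0
    have h3 := h0
    linear_combination h3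
  rw [hlhs, Finset.mul_sum, Complex.re_sum]
  refine Finset.sum_nonneg ?_
  intro ξ hξ
  have hξτ : P.eval ξ = τ := (hroot ξ).1 ((hs ξ).1 hξ)
  by_cases h0 : yy ξ = 0
  · simp [h0]
  · have hn : (‖yy ξ‖ : ℝ) ≠ 0 := norm_ne_zero_iff.2 h0
    have hnC : ((‖yy ξ‖ : ℝ) : ℂ) ≠ 0 := by exact_mod_cast hn
    set x : H := ((‖yy ξ‖ : ℝ) : ℂ)⁻¹ • yy ξ with hx
    have hx1 : ‖x‖ = 1 := by
      rw [hx, norm_smul, norm_inv, Complex.norm_real, norm_norm]
      exact inv_mul_cancel₀ hn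
    have hxin : inner ℂ (yy ξ) (A (yy ξ)) = (‖yy ξ‖ : ℂ) ^ 2 * inner ℂ x (A x) := by
      rw [hx, map_smul, inner_smul_left, inner_smul_right]
      simp only [map_inv₀, Complex.conj_ofReal]
      field_simp
    have h2 := hW ξ hξτ x hx1
    have h3 : β * (P.derivative.eval ξ * ((‖yy ξ‖ : ℂ) ^ 2 * ξ - inner ℂ (yy ξ) (A (yy ξ))))
        = ((‖yy ξ‖ ^ 2 : ℝ) : ℂ) * (β * P.derivative.eval ξ * (ξ - inner ℂ x (A x))) := by
      rw [hxin]
      push_cast
      ring
    rw [h3, Complex.re_ofReal_mul]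
    exact mul_nonneg (by positivity) h2

end Vale.Agent.P123
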