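import Vale.Agent.P123.Bounds

open Polynomial

namespace Vale.Agent.P123

variable {H : Type*} [NormedAddCommGroup H] [InnerProductSpace ℂ H]

/-- Mapping theorem for powers and rotation invariant closed convex sets. -/
theorem rotation_power (A : H →L[ℂ] H) (n : ℕ) (hn : 0 < n) (K : Set ℂ) (hc : IsClosed K)
    (hK : Convex ℝ K) (hrot : ∀ η : ℂ, η ^ n = 1 → ∀ a ∈ K, η * a ∈ K)
    (hW : ∀ x : H, ‖x‖ = 1 → inner ℂ x (A x) ∈ K) (y : H) (hy : ‖y‖ = 1) :
    ∃ z ∈ K, inner ℂ y ((A ^ n) y) = z ^ n := by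
  classical
  obtain ⟨z0, hz0⟩ := IsAlgClosed.exists_pow_nat_eq (inner ℂ y ((A ^ n) y) : ℂ) hn
  by_cases hmem : z0 ∈ K
  · exact ⟨z0, hmem, hz0.symm⟩
  exfalso
  obtain ⟨f, u, hfu, huf⟩ := geometric_hahn_banach_closed_point hK hc hmem
  -- f in complex form
  set N : ℂ := (f 1 : ℂ) - (f Complex.I : ℂ) * Complex.I with hN
  have hfN : ∀ w : ℂ, f w = (N * w).re := by
    intro w
    have h1 : w = w.re • (1 : ℂ) + w.im • Complex.I := by
      simp [Complex.re_add_im]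
    conv_lhs => rw [h1]
    rw [map_add, map_smul, map_smul]
    simp [hN]
    ring
  -- n = 1 is trivial
  by_cases hn1 : n = 1
  · subst hn1
    apply hmem
    have h1 := hW y hy
    rw [pow_one] at hz0
    simp only [pow_one] at hz0
    rw [hz0]
    exact h1
  have hn2 : 1 < n := by omega
  -- u is positive
  have ha : (inner ℂ y (A y) : ℂ) ∈ K := hW y hy
  set a0 : ℂ := inner ℂ y (A y) with ha0
  have hζ := Complex.isPrimitiveRoot_exp n hn.ne'
  set ω : ℂ := Complex.exp (2 * Real.pi * Complex.I / n) with hω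
  have hsum0 : ∑ k ∈ Finset.range n, ω ^ k = 0 := hζ.geom_sum_eq_zero hn2
  have hupos : 0 < u := by
    have h1 : ∀ k ∈ Finset.range n, f (ω ^ k * a0) < u := by
      intro k _
      refine hfu _ (hrot _ ?_ _ ha)
      rw [← pow_mul, mul_comm, pow_mul, hζ.pow_eq_one, one_pow]
    have h2 : ∑ k ∈ Finset.range n, f (ω ^ k * a0) < ∑ _k ∈ Finset.range n, u :=
      Finset.sum_lt_sum_of_nonempty ⟨0, Finset.mem_range.2 hn⟩ h1
    have h3 : ∑ k ∈ Finset.range n, f (ω ^ k * a0) = 0 := by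
      rw [← map_sum, ← Finset.sum_mul, hsum0, zero_mul, map_zero]
    rw [h3, Finset.sum_const, Finset.card_range, nsmul_eq_mul] at h2
    have h4 : (0 : ℝ) < n := by exact_mod_cast hn
    exact (pos_iff_pos_of_mul_pos h2).1 h4
  have hfz0 : 0 < f z0 := lt_trans hupos huf
  set ρ : ℝ := (u + f z0) / (2 * f z0) with hρ
  have hρ0 : 0 < ρ := by positivity
  have hρ1 : ρ < 1 := by
    rw [hρ, div_lt_one (by positivity)]
    linarith
  have hz00 : z0 ≠ 0 := by
    rintro rfl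
    simp at hfz0
  have hρC : (ρ : ℂ) ≠ 0 := by exact_mod_cast hρ0.ne'
  set ζ : ℂ := (ρ : ℂ) * z0 with hζdef
  have hζ0 : ζ ≠ 0 := mul_ne_zero hρC hz00
  have hfζ : f ζ = ρ * f z0 := by
    have : ζ = ρ • z0 := by simp [hζdef]
    rw [this, map_smul, smul_eq_mul]
  have hfζu : u < f ζ := by
    rw [hfζ, hρ]
    have : (u + f z0) / (2 * f z0) * f z0 = (u + f z0) / 2 := by field_simp
    rw [this]
    linarith
  have hnC : (n : ℂ) ≠ 0 := by exact_mod_cast hn.ne'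
  have hnat : ((X ^ n : ℂ[X])).natDegree = n := natDegree_X_pow n
  have hderiv : ∀ ξ : ℂ, ((X ^ n : ℂ[X])).derivative.eval ξ = (n : ℂ) * ξ ^ (n - 1) := by
    intro ξ
    simp [derivative_X_pow]
  have hev : ∀ ξ : ℂ, ((X ^ n : ℂ[X])).eval ξ = ξ ^ n := by
    intro ξ
    simp
  have hpoly := polygon A (X ^ n) (by omega) (ζ ^ n) (N / ((n : ℂ) * ζ ^ (n - 1)))
    (by
      intro ξ hξ
      rw [hev] at hξ
      rw [hderiv]
      have hξ0 : ξ ≠ 0 := by
        rintro rfl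
        rw [zero_pow hn.ne'] at hξ
        exact pow_ne_zero n hζ0 hξ.symm
      exact mul_ne_zero hnC (pow_ne_zero _ hξ0))
    (by
      intro ξ hξ x hx
      rw [hev] at hξ
      have hξ0 : ξ ≠ 0 := by
        rintro rfl
        rw [zero_pow hn.ne'] at hξ
        exact pow_ne_zero n hζ0 hξ.symm
      rw [hderiv]
      set η : ℂ := ζ / ξ with hη
      have hηn : η ^ n = 1 := by
        rw [hη, div_pow, hξ, div_self (pow_ne_zero n hζ0)]
      have hmemK := hfu _ (hrot η hηn _ (hW x hx))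
      have hpow : ξ ^ (n - 1) * ξ = ζ ^ (n - 1) * ζ := by
        rw [← pow_succ, ← pow_succ, Nat.sub_add_cancel hn, hξ]
      have hkey : N / ((n : ℂ) * ζ ^ (n - 1)) * ((n : ℂ) * ξ ^ (n - 1)) * (ξ - inner ℂ x (A x))
          = N * ζ - N * (η * inner ℂ x (A x)) := by
        have hζp : ζ ^ (n - 1) ≠ 0 := pow_ne_zero _ hζ0
        have hr : ξ ^ (n - 1) / ζ ^ (n - 1) = η := by
          rw [hη]
          field_simp
          linear_combination hpow
        have : N / ((n : ℂ) * ζ ^ (n - 1)) * ((n : ℂ) * ξ ^ (n - 1))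
            = N * (ξ ^ (n - 1) / ζ ^ (n - 1)) := by
          field_simp
        rw [this, hr, hη]
        field_simp
      rw [hkey, Complex.sub_re, ← hfN, ← hfN]
      linarith) y
  rw [hy] at hpoly
  have hfin : N / ((n : ℂ) * ζ ^ (n - 1)) * (ζ ^ n * (((1 : ℝ) : ℂ)) ^ 2 - inner ℂ y (aeval A (X ^ n : ℂ[X]) y))
      = (((ρ ^ n - 1) / ((n : ℝ) * ρ ^ (n - 1)) : ℝ) : ℂ) * (N * z0) := by
    have h1 : aeval A (X ^ n : ℂ[X]) = A ^ n := by simp
    rw [h1, ← hz0]
    have hz0p : z0 ^ (n - 1) ≠ 0 := pow_ne_zero _ hz00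
    have hρp : (ρ : ℂ) ^ (n - 1) ≠ 0 := pow_ne_zero _ hρC
    have h2 : z0 ^ n = z0 ^ (n - 1) * z0 := by
      rw [← pow_succ, Nat.sub_add_cancel hn]
    have h3 : (ρ : ℂ) ^ n = (ρ : ℂ) ^ (n - 1) * ρ := by
      rw [← pow_succ, Nat.sub_add_cancel hn]
    rw [hζdef, mul_pow, mul_pow]
    push_cast
    field_simp
    rw [h2, h3]
    field_simp
  rw [hfin, Complex.re_ofReal_mul, ← hfN] at hpoly
  have hneg : (ρ ^ n - 1) / ((n : ℝ) * ρ ^ (n - 1)) < 0 := by
    apply div_neg_of_neg_of_pos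
    · have : ρ ^ n < 1 := pow_lt_one₀ hρ0.le hρ1 hn.ne'
      linarith
    · have h4 : (0 : ℝ) < n := by exact_mod_cast hn
      positivity
  have := mul_neg_of_neg_of_pos hneg hfz0
  linarith

/-- Scaling from unit vectors to all vectors. -/
theorem bound_of_unit (T : H →L[ℂ] H) (M : ℝ)
    (hT : ∀ x : H, ‖x‖ = 1 → ‖inner ℂ x (T x)‖ ≤ M) (y : H) :
    ‖inner ℂ y (T y)‖ ≤ M * ‖y‖ ^ 2 := by
  by_cases hy : y = 0
  · simp [hy]
  have hn : ‖y‖ ≠ 0 := norm_ne_zero_iff.2 hy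
  have hnC : ((‖y‖ : ℝ) : ℂ) ≠ 0 := by exact_mod_cast hn
  have hx : ‖((‖y‖ : ℝ) : ℂ)⁻¹ • y‖ = 1 := by
    rw [norm_smul, norm_inv, Complex.norm_real, norm_norm]
    exact inv_mul_cancel₀ hn
  have h1 := hT _ hx
  have h2 : (inner ℂ y (T y) : ℂ)
      = ((‖y‖ ^ 2 : ℝ) : ℂ) * inner ℂ (((‖y‖ : ℝ) : ℂ)⁻¹ • y) (T (((‖y‖ : ℝ) : ℂ)⁻¹ • y)) := by
    rw [map_smul, inner_smul_left, inner_smul_right]
    simp only [map_inv₀, Complex.conj_ofReal]
    push_cast
    field_simp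
  rw [h2, norm_mul, Complex.norm_real, Real.norm_eq_abs, abs_of_nonneg (by positivity)]
  have h3 : 0 ≤ ‖y‖ ^ 2 := by positivity
  nlinarith

/-- The translated form of the rotation theorem. -/
theorem rotation_translated (A : H →L[ℂ] H) (n : ℕ) (a e d : ℂ) (K : Set ℂ) (hn : 0 < n)
    (hc : IsClosed K) (hK : Convex ℝ K)
    (hrot : ∀ η : ℂ, η ^ n = 1 → ∀ w ∈ K, e + η * (w - e) ∈ K)
    (hW : ∀ x : H, ‖x‖ = 1 → inner ℂ x (A x) ∈ K) (y : H) (hy : ‖y‖ = 1) :
    ∃ z ∈ K, inner ℂ y (aeval A (C a * (X - C e) ^ n + C d) y)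
      = (C a * (X - C e) ^ n + C d : ℂ[X]).eval z := by
  set T : H →L[ℂ] H := A - e • (1 : H →L[ℂ] H) with hT
  set K' : Set ℂ := {w : ℂ | w + e ∈ K} with hK'
  have hc' : IsClosed K' := hc.preimage (continuous_id.add continuous_const)
  have hconv' : Convex ℝ K' := by
    intro u hu v hv s t hs ht hst
    have := hK hu hv hs ht hst
    show s • u + t • v + e ∈ K
    convert this using 1
    simp only [Complex.real_smul]
    have hst' : (s : ℂ) + t = 1 := by exact_mod_cast hst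
    linear_combination (-e) * hst'
  have hrot' : ∀ η : ℂ, η ^ n = 1 → ∀ w ∈ K', η * w ∈ K' := by
    intro η hη w hw
    have := hrot η hη (w + e) hw
    show η * w + e ∈ K
    convert this using 1
    ring
  have hW' : ∀ x : H, ‖x‖ = 1 → inner ℂ x (T x) ∈ K' := by
    intro x hx
    show inner ℂ x (T x) + e ∈ K
    have h1 : (inner ℂ x (T x) : ℂ) + e = inner ℂ x (A x) := by
      simp [hT, inner_self_eq_norm_sq_to_K, hx]
    rw [h1]
    exact hW x hx
  obtain ⟨z, hz, hzeq⟩ := rotation_power T n hn K' hc' hconv' hrot' hW' y hy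
  refine ⟨z + e, hz, ?_⟩
  have h2 : aeval A (C a * (X - C e) ^ n + C d : ℂ[X]) = a • T ^ n + d • (1 : H →L[ℂ] H) := by
    simp only [map_add, map_mul, map_pow, map_sub, aeval_C, aeval_X,
      Algebra.algebraMap_eq_smul_one]
    rw [smul_mul_assoc, one_mul]
  rw [h2]
  simp only [_root_.add_apply, _root_.smul_apply, inner_add_right, inner_smul_right, hzeq]
  have h3 : (inner ℂ y ((1 : H →L[ℂ] H) y) : ℂ) = 1 := by
    simp [inner_self_eq_norm_sq_to_K, hy]
  rw [h3]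
  simp

end Vale.Agent.P123
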