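import Mathlib

namespace Vale.Agent.P123

lemma hasDerivAt_comp_aux {f g : ℝ → ℝ} {f' g' x : ℝ} (hf : HasDerivAt f f' (g x))
    (hg : HasDerivAt g g' x) : HasDerivAt (fun x => f (g x)) (f' * g') x := hf.comp x hg

/-- Sturm comparison with the cosine, to the right. -/
theorem sturm_right (G D D' : ℝ → ℝ) (hG : ∀ x, HasDerivAt G (D x) x)
    (hD : ∀ x, HasDerivAt D (D' x) x) (hpos : ∀ x, 0 ≤ D' x + G x) (x0 δ : ℝ) (h0 : 0 ≤ δ)
    (hπ : δ ≤ Real.pi) :
    G x0 * Real.cos δ + D x0 * Real.sin δ ≤ G (x0 + δ) := by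
  set W : ℝ → ℝ := fun s => D (x0 + s) * Real.sin (δ - s) + G (x0 + s) * Real.cos (δ - s) with hW
  have hderiv : ∀ s, HasDerivAt W ((D' (x0 + s) + G (x0 + s)) * Real.sin (δ - s)) s := by
    intro s
    have h2 : HasDerivAt (fun s => δ - s) (-1) s := by simpa using (hasDerivAt_id s).const_sub δ
    have hD1 : HasDerivAt (fun s => D (x0 + s)) (D' (x0 + s)) s :=
      (hD (x0 + s)).comp_const_add x0 s
    have hG1 : HasDerivAt (fun s => G (x0 + s)) (D (x0 + s)) s :=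
      (hG (x0 + s)).comp_const_add x0 s
    have hs : HasDerivAt (fun s => Real.sin (δ - s)) (Real.cos (δ - s) * (-1)) s :=
      hasDerivAt_comp_aux (Real.hasDerivAt_sin (δ - s)) h2
    have hc : HasDerivAt (fun s => Real.cos (δ - s)) (-Real.sin (δ - s) * (-1)) s :=
      hasDerivAt_comp_aux (Real.hasDerivAt_cos (δ - s)) h2
    have h3 := (hD1.mul hs).add (hG1.mul hc)
    have e : (D' (x0 + s) + G (x0 + s)) * Real.sin (δ - s)
        = D' (x0 + s) * Real.sin (δ - s) + D (x0 + s) * (Real.cos (δ - s) * (-1))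
          + (D (x0 + s) * Real.cos (δ - s) + G (x0 + s) * (-Real.sin (δ - s) * (-1))) := by ring
    rw [e]
    exact h3
  have hmono : MonotoneOn W (Set.Icc 0 δ) := by
    refine monotoneOn_of_deriv_nonneg (convex_Icc 0 δ)
      (fun s _ => (hderiv s).continuousAt.continuousWithinAt)
      (fun s _ => (hderiv s).differentiableAt.differentiableWithinAt) ?_
    intro s hs
    rw [interior_Icc] at hs
    rw [(hderiv s).deriv]
    refine mul_nonneg (hpos _) (Real.sin_nonneg_of_nonneg_of_le_pi ?_ ?_)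
    · linarith [hs.2]
    · linarith [hs.1]
  have h := hmono (Set.left_mem_Icc.2 h0) (Set.right_mem_Icc.2 h0) h0
  simp only [hW, add_zero, sub_zero, sub_self, Real.sin_zero, Real.cos_zero, mul_zero, mul_one,
    zero_add] at h
  linarith

/-- Sturm comparison with the cosine on both sides. -/
theorem sturm (G D D' : ℝ → ℝ) (hG : ∀ x, HasDerivAt G (D x) x)
    (hD : ∀ x, HasDerivAt D (D' x) x) (hpos : ∀ x, 0 ≤ D' x + G x) (x0 δ : ℝ)
    (h1 : -Real.pi ≤ δ) (h2 : δ ≤ Real.pi) :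
    G x0 * Real.cos δ + D x0 * Real.sin δ ≤ G (x0 + δ) := by
  rcases le_total 0 δ with h0 | h0
  · exact sturm_right G D D' hG hD hpos x0 δ h0 h2
  · have hneg : ∀ x : ℝ, HasDerivAt (fun x : ℝ => -x) (-1) x := fun x => hasDerivAt_neg' x
    have hG' : ∀ x, HasDerivAt (fun x => G (-x)) (-D (-x)) x := by
      intro x
      have := hasDerivAt_comp_aux (hG (-x)) (hneg x)
      rwa [mul_neg_one] at this
    have hD' : ∀ x, HasDerivAt (fun x => -D (-x)) (D' (-x)) x := by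
      intro x
      have := (hasDerivAt_comp_aux (hD (-x)) (hneg x)).neg
      rw [mul_neg_one, neg_neg] at this
      exact this
    have := sturm_right (fun x => G (-x)) (fun x => -D (-x)) (fun x => D' (-x)) hG' hD'
      (fun x => hpos (-x)) (-x0) (-δ) (by linarith) (by linarith)
    simp only [neg_neg, Real.cos_neg, Real.sin_neg, neg_add_rev] at this
    have e : x0 + δ = δ + x0 := add_comm _ _
    rw [e]
    linarith

/-- The analytic core: the reciprocal radial function of the level curve of `z^n - c`. -/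
theorem radial_core (n : ℕ) (hn : 0 < n) (p q M : ℝ) (hM : 0 < M)
    (hnM : (n : ℝ) ^ 2 * (p ^ 2 + q ^ 2) ≤ M ^ 2) (hlt : p ^ 2 + q ^ 2 < M ^ 2) :
    ∃ G D : ℝ → ℝ,
      (∀ x, HasDerivAt G (D x) x) ∧
      (∀ x δ, -Real.pi ≤ δ → δ ≤ Real.pi → G x * Real.cos δ + D x * Real.sin δ ≤ G (x + δ)) ∧
      (∀ x, G x = Real.exp (-(Real.log (p * Real.cos (n * x) + q * Real.sin (n * x)
          + Real.sqrt (M ^ 2 - (q * Real.cos (n * x) - p * Real.sin (n * x)) ^ 2))) / n)) ∧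
      (∀ x, D x = -((q * Real.cos (n * x) - p * Real.sin (n * x))
          / Real.sqrt (M ^ 2 - (q * Real.cos (n * x) - p * Real.sin (n * x)) ^ 2)) * G x) := by
  set Cf : ℝ → ℝ := fun ψ => p * Real.cos ψ + q * Real.sin ψ with hCf
  set Sf : ℝ → ℝ := fun ψ => q * Real.cos ψ - p * Real.sin ψ with hSf
  have hCS : ∀ ψ, Cf ψ ^ 2 + Sf ψ ^ 2 = p ^ 2 + q ^ 2 := by
    intro ψ
    simp only [hCf, hSf]
    have := Real.sin_sq_add_cos_sq ψ
    linear_combination (p ^ 2 + q ^ 2) * this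
  have hdC : ∀ ψ, HasDerivAt Cf (Sf ψ) ψ := by
    intro ψ
    have h := ((Real.hasDerivAt_cos ψ).const_mul p).add ((Real.hasDerivAt_sin ψ).const_mul q)
    refine HasDerivAt.congr_deriv h ?_
    simp only [hSf]
    ring
  have hdS : ∀ ψ, HasDerivAt Sf (-Cf ψ) ψ := by
    intro ψ
    have h := ((Real.hasDerivAt_cos ψ).const_mul q).sub ((Real.hasDerivAt_sin ψ).const_mul p)
    refine HasDerivAt.congr_deriv h ?_
    simp only [hCf]
    ring
  set Q : ℝ → ℝ := fun ψ => Real.sqrt (M ^ 2 - Sf ψ ^ 2) with hQ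
  have hQ2pos : ∀ ψ, 0 < M ^ 2 - Sf ψ ^ 2 := by
    intro ψ
    have := hCS ψ
    nlinarith [sq_nonneg (Cf ψ)]
  have hQpos : ∀ ψ, 0 < Q ψ := fun ψ => Real.sqrt_pos.2 (hQ2pos ψ)
  have hQsq : ∀ ψ, Q ψ ^ 2 = M ^ 2 - Sf ψ ^ 2 := fun ψ => Real.sq_sqrt (hQ2pos ψ).le
  have hdQ : ∀ ψ, HasDerivAt Q (Sf ψ * Cf ψ / Q ψ) ψ := by
    intro ψ
    have h1 : HasDerivAt (fun ψ => M ^ 2 - Sf ψ ^ 2) (-(2 * Sf ψ * (-Cf ψ))) ψ := by
      have h := ((hdS ψ).pow 2).const_sub (M ^ 2)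
      refine HasDerivAt.congr_deriv h ?_
      simp
    have h2 := h1.sqrt (hQ2pos ψ).ne'
    refine HasDerivAt.congr_deriv h2 ?_
    have h3 := hQpos ψ
    change -(2 * Sf ψ * -Cf ψ) / (2 * Q ψ) = _
    field_simp
  set ρ : ℝ → ℝ := fun ψ => Cf ψ + Q ψ with hρ
  have hρpos : ∀ ψ, 0 < ρ ψ := by
    intro ψ
    have h1 := hQpos ψ
    have h2 := hQsq ψ
    have h3 := hCS ψ
    have h4 : Cf ψ ^ 2 < Q ψ ^ 2 := by nlinarith
    simp only [hρ]
    nlinarith [abs_lt_of_sq_lt_sq h4 h1.le]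
  have hdL : ∀ ψ, HasDerivAt (fun ψ => Real.log (ρ ψ)) (Sf ψ / Q ψ) ψ := by
    intro ψ
    have h1 : HasDerivAt ρ (Sf ψ + Sf ψ * Cf ψ / Q ψ) ψ := (hdC ψ).add (hdQ ψ)
    have h2 := h1.log (hρpos ψ).ne'
    refine HasDerivAt.congr_deriv h2 ?_
    have h3 := hQpos ψ
    have h4 := hρpos ψ
    have e : Sf ψ + Sf ψ * Cf ψ / Q ψ = Sf ψ / Q ψ * ρ ψ := by
      simp only [hρ]
      field_simp
      ring
    rw [e]
    field_simp
  have hdT : ∀ ψ, HasDerivAt (fun ψ => Sf ψ / Q ψ) (-(Cf ψ * M ^ 2 / Q ψ ^ 3)) ψ := by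
    intro ψ
    have h1 := (hdS ψ).div (hdQ ψ) (hQpos ψ).ne'
    refine HasDerivAt.congr_deriv h1 ?_
    have h3 := hQpos ψ
    have h4 := hQsq ψ
    rw [show M ^ 2 = Q ψ ^ 2 + Sf ψ ^ 2 by linarith]
    field_simp
    ring
  have hnC : (n : ℝ) ≠ 0 := by exact_mod_cast hn.ne'
  have hnpos : (0 : ℝ) < n := by exact_mod_cast hn
  have hlin : ∀ x : ℝ, HasDerivAt (fun x : ℝ => (n : ℝ) * x) (n : ℝ) x := by
    intro x
    have h := (hasDerivAt_id x).const_mul (n : ℝ)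
    rw [mul_one] at h
    exact h
  set G : ℝ → ℝ := fun x => Real.exp (-(Real.log (ρ (n * x))) / n) with hGdef
  set T : ℝ → ℝ := fun x => Sf (n * x) / Q (n * x) with hTdef
  have hGpos : ∀ x, 0 < G x := fun x => Real.exp_pos _
  have hdG : ∀ x, HasDerivAt G (-T x * G x) x := by
    intro x
    have h1 : HasDerivAt (fun x : ℝ => Real.log (ρ (n * x))) (T x * n) x :=
      hasDerivAt_comp_aux (f := fun ψ => Real.log (ρ ψ)) (g := fun x : ℝ => (n : ℝ) * x)
        (hdL (n * x)) (hlin x)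
    have h2 : HasDerivAt (fun x : ℝ => -(Real.log (ρ (n * x))) / n) (-T x) x := by
      have h := h1.neg.div_const (n : ℝ)
      refine HasDerivAt.congr_deriv h ?_
      field_simp
    have h3 := h2.exp
    refine HasDerivAt.congr_deriv h3 ?_
    ring
  have hdTx : ∀ x, HasDerivAt T (-(Cf (n * x) * M ^ 2 / Q (n * x) ^ 3) * n) x := by
    intro x
    exact hasDerivAt_comp_aux (f := fun ψ => Sf ψ / Q ψ) (g := fun x : ℝ => (n : ℝ) * x)
      (hdT (n * x)) (hlin x)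
  have hdD : ∀ x, HasDerivAt (fun x => -T x * G x)
      ((Cf (n * x) * M ^ 2 / Q (n * x) ^ 3) * n * G x + T x ^ 2 * G x) x := by
    intro x
    have h := ((hdTx x).neg).mul (hdG x)
    refine HasDerivAt.congr_deriv h ?_
    simp only [Pi.neg_apply]
    ring
  have hpos : ∀ x, 0 ≤ ((Cf (n * x) * M ^ 2 / Q (n * x) ^ 3) * n * G x + T x ^ 2 * G x) + G x := by
    intro x
    set ψ := (n : ℝ) * x with hψ
    have h1 := hQpos ψ
    have h2 := hQsq ψ
    have h3 := hCS ψ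
    have hkey : 0 ≤ Q ψ + n * Cf ψ := by
      rcases le_total 0 (Cf ψ) with h | h
      · positivity
      · have h5 : ((n : ℝ) * (-Cf ψ)) ^ 2 ≤ Q ψ ^ 2 := by
          have hn1 : (1 : ℝ) ≤ (n : ℝ) ^ 2 := by
            have : (1 : ℝ) ≤ n := by exact_mod_cast hn
            nlinarith
          have : (n : ℝ) ^ 2 * (Cf ψ ^ 2 + Sf ψ ^ 2) ≤ M ^ 2 := by rw [h3]; exact hnM
          nlinarith [sq_nonneg (Sf ψ)]
        have h6 := abs_le_of_sq_le_sq' h5 h1.le
        linarith [h6.2]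
    have e : ((Cf ψ * M ^ 2 / Q ψ ^ 3) * n * G x + T x ^ 2 * G x) + G x
        = G x * (M ^ 2 / Q ψ ^ 3) * (Q ψ + n * Cf ψ) := by
      have hT : T x = Sf ψ / Q ψ := rfl
      rw [hT]
      have hM2 : M ^ 2 = Q ψ ^ 2 + Sf ψ ^ 2 := by linarith
      field_simp
      rw [hM2]
      ring
    rw [e]
    have := hGpos x
    positivity
  refine ⟨G, fun x => -T x * G x, hdG, ?_, fun x => rfl, fun x => rfl⟩
  intro x δ h1 h2
  exact sturm G (fun x => -T x * G x) _ hdG hdD hpos x δ h1 h2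

end Vale.Agent.P123
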